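import Vale.Agent.P121.H414.K.Calc

set_option linter.all false

open MeasureTheory Set Filter Topology
open scoped ENNReal

namespace Vale.Agent.P121.H414.K

section PairCost

variable {kk : ℝ → ℝ}

open Classical in
/-- the kernel with value `∞` at `0` -/
noncomputable def kE (kk : ℝ → ℝ) (t : ℝ) : ℝ≥0∞ := if t ≤ 0 then ∞ else ENNReal.ofReal (kk t)

lemma kE_nonpos {t : ℝ} (ht : t ≤ 0) : kE kk t = ∞ := by simp [kE, ht]

lemma kE_pos {t : ℝ} (ht : 0 < t) : kE kk t = ENNReal.ofReal (kk t) := by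
  simp [kE, not_le.2 ht]

lemma continuous_kE [hk : Ker kk] : Continuous (kE kk) := by
  rw [continuous_iff_continuousAt]
  intro t
  rcases lt_or_ge 0 t with ht | ht
  · have h1 : ContinuousAt (fun t => ENNReal.ofReal (kk t)) t :=
      ENNReal.continuous_ofReal.continuousAt.comp (kk_smooth (hk := hk) ht).continuousAt
    refine h1.congr ?_
    filter_upwards [Ioi_mem_nhds ht] with u hu
    exact (kE_pos hu).symm
  · unfold ContinuousAt
    rw [kE_nonpos ht, ENNReal.tendsto_nhds_top_iff_nnreal]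
    intro x
    have h1 := hk.blow.eventually (eventually_gt_atTop (x : ℝ))
    rw [eventually_nhdsWithin_iff, Metric.eventually_nhds_iff] at h1
    obtain ⟨ε, hε, h2⟩ := h1
    have h3 : ∀ᶠ u in 𝓝 t, u < ε := Iio_mem_nhds (lt_of_le_of_lt ht hε)
    filter_upwards [h3] with u hu
    rcases le_or_gt u 0 with h0 | h0
    · rw [kE_nonpos h0]
      exact ENNReal.coe_lt_top
    · rw [kE_pos h0]
      have h4 := h2 (y := u) (by rw [Real.dist_eq, sub_zero, abs_of_pos h0]; exact hu) h0
      rw [ENNReal.lt_ofReal_iff_toReal_lt ENNReal.coe_ne_top]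
      exact h4

variable {E : Type*} [NormedAddCommGroup E]

lemma pairCost_eq_kE (x y : E) : pairCost kk x y = kE kk (dist x y) := by
  by_cases h : x = y
  · subst h
    rw [dist_self, kE_nonpos le_rfl]
    simp [pairCost]
  · rw [kE_pos (dist_pos.2 h)]
    simp [pairCost, h]

lemma pairCost_comm (x y : E) : pairCost kk x y = pairCost kk y x := by
  rw [pairCost_eq_kE, pairCost_eq_kE, dist_comm]

lemma pairCost_self (x : E) : pairCost kk x x = ∞ := by simp [pairCost]

lemma pairCost_ne {x y : E} (h : x ≠ y) : pairCost kk x y = ENNReal.ofReal (kk (dist x y)) := by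
  simp [pairCost, h]

lemma continuous_pairCost [Ker kk] {X : Type*} [TopologicalSpace X] {f g : X → E}
    (hf : Continuous f) (hg : Continuous g) : Continuous (fun x => pairCost kk (f x) (g x)) := by
  simp only [pairCost_eq_kE]
  exact continuous_kE.comp (hf.dist hg)

end PairCost


section Perm

variable {E : Type*} [NormedAddCommGroup E] {N : ℕ} {kk : ℝ → ℝ} [Ker kk]

lemma two_coulombN (x : Fin N → E) :
    2 * costK kk x = ∑ i, ∑ j ∈ {i}ᶜ, pairCost kk (x j) (x i) := by
  rw [← Finset.sum_sum_Ioi_add_eq_sum_sum_off_diag, costK, Finset.mul_sum]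
  refine Finset.sum_congr rfl fun i _ => ?_
  rw [Finset.mul_sum]
  refine Finset.sum_congr rfl fun j _ => ?_
  rw [pairCost_comm (x j) (x i), two_mul]

lemma coulombN_perm (σ : Equiv.Perm (Fin N)) (x : Fin N → E) :
    costK kk (fun i => x (σ i)) = costK kk x := by
  have h : 2 * costK kk (fun i => x (σ i)) = 2 * costK kk x := by
    rw [two_coulombN, two_coulombN,
      ← Equiv.sum_comp σ (fun i => ∑ j ∈ {i}ᶜ, pairCost kk (x j) (x i))]
    refine Finset.sum_congr rfl fun i _ => ?_
    refine Finset.sum_bij' (fun j _ => σ j) (fun j _ => σ.symm j) ?_ ?_ ?_ ?_ ?_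
    · intro j hj
      simp only [Finset.mem_compl, Finset.mem_singleton] at hj ⊢
      exact fun h => hj (σ.injective h)
    · intro j hj
      simp only [Finset.mem_compl, Finset.mem_singleton] at hj ⊢
      intro h
      exact hj (by rw [← h, Equiv.apply_symm_apply])
    · intro j _
      simp
    · intro j _
      simp
    · intro j _
      rfl
  exact (ENNReal.mul_right_inj (by norm_num) (by norm_num)).1 h

variable [MeasurableSpace E] [BorelSpace E] [SecondCountableTopology E]

lemma measurable_coulombN : Measurable (costK kk : (Fin N → E) → ℝ≥0∞) := by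
  unfold costK
  refine Finset.measurable_sum _ fun i _ => Finset.measurable_sum _ fun j _ => ?_
  simp only [pairCost_eq_kE]
  exact continuous_kE.measurable.comp ((measurable_pi_apply i).dist (measurable_pi_apply j))

end Perm

section Duality

variable {E : Type*} [NormedAddCommGroup E] [MeasurableSpace E] {N : ℕ} {kk : ℝ → ℝ} [Ker kk]

lemma le_kantorovichN [NeZero N] {μ : Measure E} [IsProbabilityMeasure μ]
    {S : Set E} (hS : ∀ᵐ x ∂μ, x ∈ S) {U : E → ℝ≥0∞} (hU : Measurable U) {C : ℝ≥0∞}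
    (hle : ∀ x : Fin N → E, (∀ i, x i ∈ S) → ∑ i, U (x i) ≤ costK kk x + C) :
    N * ∫⁻ x, U x ∂μ ≤ kantorovichK kk N μ + C := by
  unfold kantorovichK
  rw [ENNReal.iInf_add]
  refine le_iInf fun π => ?_
  rw [ENNReal.iInf_add]
  refine le_iInf fun hπ => ?_
  have hp : IsProbabilityMeasure π := isProbabilityMeasure_couplingN hπ
  rw [← lintegral_couplingN hπ hU]
  calc ∫⁻ p, ∑ i, U (p i) ∂π ≤ ∫⁻ p, (costK kk p + C) ∂π := by
        refine lintegral_mono_ae ?_
        filter_upwards [coupling_ae_memN hπ hS] with p hp using hle p hp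
    _ = ∫⁻ p, costK kk p ∂π + C := by
        rw [lintegral_add_right _ measurable_const]
        simp only [lintegral_const, measure_univ, mul_one]

lemma kantorovichN_add_le [NeZero N] {μ : Measure E} [IsProbabilityMeasure μ]
    {π : Measure (Fin N → E)} (hπ : IsCouplingN μ π)
    {U : E → ℝ≥0∞} (hU : Measurable U) {C : ℝ≥0∞}
    (heq : ∀ᵐ p ∂π, costK kk p + C = ∑ i, U (p i)) :
    kantorovichK kk N μ + C ≤ N * ∫⁻ x, U x ∂μ := by
  have hp : IsProbabilityMeasure π := isProbabilityMeasure_couplingN hπ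
  have h1 : kantorovichK kk N μ ≤ ∫⁻ p, costK kk p ∂π := iInf₂_le π hπ
  calc kantorovichK kk N μ + C ≤ ∫⁻ p, costK kk p ∂π + C := by gcongr
    _ = ∫⁻ p, (costK kk p + C) ∂π := by
        rw [lintegral_add_right _ measurable_const]
        simp only [lintegral_const, measure_univ, mul_one]
    _ = ∫⁻ p, ∑ i, U (p i) ∂π := lintegral_congr_ae heq
    _ = N * ∫⁻ x, U x ∂μ := lintegral_couplingN hπ hU

end Duality

section Monge

variable {E : Type*} [NormedAddCommGroup E] [MeasurableSpace E] [BorelSpace E]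
    [SecondCountableTopology E] {N : ℕ} {kk : ℝ → ℝ} [Ker kk]

/-- An optimal Monge plan lives on the contact set. -/
lemma monge_contactN [NeZero N] {μ : Measure E} [IsProbabilityMeasure μ]
    {S : Set E} (hS : ∀ᵐ x ∂μ, x ∈ S) {U : E → ℝ≥0∞} (hU : Measurable U) {C : ℝ≥0∞}
    (hle : ∀ x : Fin N → E, (∀ i, x i ∈ S) → ∑ i, U (x i) ≤ costK kk x + C)
    (hfin : N * ∫⁻ x, U x ∂μ ≠ ∞)
    {T : Fin N → E → E} (hT : IsMongeN μ T)
    (hopt : mongeCostK kk μ T + C ≤ N * ∫⁻ x, U x ∂μ) :
    ∀ᵐ x ∂μ, (∀ i, T i x ∈ S) ∧ costK kk (fun i => T i x) + C = ∑ i, U (T i x) := by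
  have m : Measurable (fun x : E => fun i => T i x) :=
    measurable_pi_lambda _ fun j => (hT.2 j).1
  have hmem : ∀ᵐ x ∂μ, ∀ i, T i x ∈ S := by
    have := coupling_ae_memN hT.isCoupling hS
    exact ae_of_ae_map m.aemeasurable this
  have hint : ∫⁻ x, ∑ i, U (T i x) ∂μ = N * ∫⁻ x, U x ∂μ := by
    rw [← lintegral_couplingN hT.isCoupling hU, lintegral_map _ m]
    exact Finset.measurable_sum _ fun i _ => hU.comp (measurable_pi_apply i)
  have hle' : (fun x => ∑ i, U (T i x)) ≤ᵐ[μ] fun x => costK kk (fun i => T i x) + C := by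
    filter_upwards [hmem] with x hx
    exact hle _ hx
  have hint2 : ∫⁻ x, (costK kk (fun i => T i x) + C) ∂μ = mongeCostK kk μ T + C := by
    rw [lintegral_add_right _ measurable_const]
    simp only [lintegral_const, measure_univ, mul_one, mongeCostK]
  have heq := ae_eq_of_ae_le_of_lintegral_le hle' (by rw [hint]; exact hfin)
    ((measurable_coulombN.comp m).add_const C).aemeasurable (by rw [hint, hint2]; exact hopt)
  filter_upwards [hmem, heq] with x hx hx'
  exact ⟨hx, hx'.symm⟩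

end Monge

section Meas

variable {E : Type*} [NormedAddCommGroup E] [MeasurableSpace E] {N : ℕ} {kk : ℝ → ℝ} [Ker kk]

variable [BorelSpace E] [SecondCountableTopology E]

lemma planN_ae [NeZero N] {ν : Measure E} {D : Set E} (hνD : ν Dᶜ = 0)
    {F : Fin 2 → Fin N → E → E} (hF : ∀ j i, Measurable (F j i))
    {U : E → ℝ≥0∞} (hU : Measurable U) {C : ℝ≥0∞}
    (heq : ∀ j, ∀ x ∈ D, costK kk (fun i => F j i x) + C = ∑ i, U (F j i x)) :
    ∀ᵐ p ∂(planN ν F), costK kk p + C = ∑ i, U (p i) := by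
  have hD : ∀ᵐ x ∂ν, x ∈ D := by
    rw [ae_iff]; exact hνD
  have hms : MeasurableSet {p : Fin N → E | costK kk p + C = ∑ i, U (p i)} :=
    measurableSet_eq_fun (measurable_coulombN.add_const C)
      (Finset.measurable_sum _ fun i _ => hU.comp (measurable_pi_apply i))
  rw [planN]
  refine Measure.ae_smul_measure ?_ _
  refine ae_sum_measure _ _ fun j _ => ae_sum_measure _ _ fun k _ => ?_
  have m : Measurable (fun (x : E) (i : Fin N) => F j (i + k) x) :=
    measurable_pi_lambda _ fun i => hF j (i + k)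
  rw [ae_map_iff m.aemeasurable hms]
  filter_upwards [hD] with x hx
  have e1 : costK kk (fun i => F j (i + k) x) = costK kk (fun i => F j i x) :=
    coulombN_perm (Equiv.addRight k) (fun i => F j i x)
  have e2 : ∑ i, U (F j (i + k) x) = ∑ i, U (F j i x) :=
    Equiv.sum_comp (Equiv.addRight k) (fun i => U (F j i x))
  rw [e1, e2]
  exact heq j x hx

end Meas

/-- Abstract measure theoretic part for `N` particles. -/
theorem abstractN {E : Type*} [NormedAddCommGroup E] [MeasurableSpace E] [BorelSpace E]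
    [SecondCountableTopology E] [CompleteSpace E] {N : ℕ} {kk : ℝ → ℝ} [Ker kk] [NeZero N]
    (ν : Measure E) [IsProbabilityMeasure ν] (D : Set E) (hD : MeasurableSet D) (hνD : ν Dᶜ = 0)
    (F : Fin 2 → Fin N → E → E) (hF : ∀ j i, Measurable (F j i))
    (hinj : ∀ j i, InjOn (F j i) D) (hF0 : ∀ j, ∀ x ∈ D, F j 0 x = x) (b : Fin N)
    (hsep : ∀ j j' i, (j', i) ≠ (j, b) → Disjoint (F j b '' D) (F j' i '' D))
    (U : E → ℝ≥0∞) (hU : Measurable U) (M : ℝ≥0∞) (hM : M ≠ ∞) (hUM : ∀ x, U x ≤ M)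
    (C : ℝ≥0∞) (hC : C ≠ ∞)
    (hle : ∀ x : Fin N → E, (∀ i, x i ∈ ⋃ j, ⋃ i, F j i '' D) → ∑ i, U (x i) ≤ costK kk x + C)
    (heq : ∀ j, ∀ x ∈ D, costK kk (fun i => F j i x) + C = ∑ i, U (F j i x))
    (hcontact : ∀ x : Fin N → E, (∀ i, x i ∈ ⋃ j, ⋃ i, F j i '' D) → x 0 ∈ D →
      costK kk x + C = ∑ i, U (x i) → ∃ j k, x k = F j b (x 0)) :
    IsProbabilityMeasure (measN ν F) ∧ kantorovichK kk N (measN ν F) ≠ ∞ ∧
    ∀ T : Fin N → E → E, IsMongeN (measN ν F) T →
      mongeCostK kk (measN ν F) T ≠ kantorovichK kk N (measN ν F) := by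
  have hprob : IsProbabilityMeasure (measN ν F) := isProbabilityMeasure_measN ν hF
  have hS := measN_ae_mem hD hνD hF hinj
  have hfin : N * ∫⁻ x, U x ∂(measN ν F) ≠ ∞ := by
    refine ENNReal.mul_ne_top (ENNReal.natCast_ne_top N) ?_
    refine ne_top_of_le_ne_top hM ?_
    calc ∫⁻ x, U x ∂(measN ν F) ≤ ∫⁻ _, M ∂(measN ν F) := lintegral_mono hUM
      _ = M := by simp only [lintegral_const, measure_univ, mul_one]
  have hval : kantorovichK kk N (measN ν F) + C = N * ∫⁻ x, U x ∂(measN ν F) :=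
    le_antisymm (kantorovichN_add_le (planN_isCoupling ν hF) hU (planN_ae hνD hF hU heq))
      (le_kantorovichN hS hU hle)
  have hKfin : kantorovichK kk N (measN ν F) ≠ ∞ := by
    refine ne_top_of_le_ne_top hfin ?_
    rw [← hval]
    exact le_self_add
  refine ⟨hprob, hKfin, ?_⟩
  intro T hT hopt
  have hcon := monge_contactN hS hU hle hfin hT (by rw [hopt, hval])
  -- the pieces
  have hAm : ∀ j k, MeasurableSet {x | x ∈ D ∧ T k x = F j b x} := fun j k =>
    hD.inter (measurableSet_eq_fun (hT.2 k).1 (hF j b))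
  have hlow : ∀ A : Set E, MeasurableSet A → A ⊆ D →
      2 * ((2 * N : ℝ≥0∞)⁻¹ * ν A) ≤ measN ν F A := by
    intro A hA hAD
    rw [measN_apply ν hF hA, mul_left_comm]
    gcongr
    have h0 : ∀ j, ν A ≤ ν (F j 0 ⁻¹' A) := by
      intro j
      refine measure_mono fun x hx => ?_
      rw [mem_preimage, hF0 j x (hAD hx)]
      exact hx
    rw [Fin.sum_univ_two, two_mul]
    exact add_le_add ((h0 0).trans (Finset.single_le_sum (f := fun i => ν (F 0 i ⁻¹' A))
        (fun i _ => bot_le) (Finset.mem_univ 0)))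
      ((h0 1).trans (Finset.single_le_sum (f := fun i => ν (F 1 i ⁻¹' A))
        (fun i _ => bot_le) (Finset.mem_univ 0)))
  have hNinv : (2 * N : ℝ≥0∞)⁻¹ ≠ 0 := ENNReal.inv_ne_zero.2 two_N_ne_top
  have hNinv' : (2 * N : ℝ≥0∞)⁻¹ ≠ ∞ := ENNReal.inv_ne_top.2 two_N_ne_zero
  have hzero : ∀ j k, ν {x | x ∈ D ∧ T k x = F j b x} = 0 := by
    intro j k
    set A := {x | x ∈ D ∧ T k x = F j b x} with hAdef
    have hAD : A ⊆ D := fun x hx => hx.1
    have himg : MeasurableSet (F j b '' A) :=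
      (hAm j k).image_of_measurable_injOn (hF j b) ((hinj j b).mono hAD)
    have h1 : measN ν F A ≤ (2 * N : ℝ≥0∞)⁻¹ * ν A := by
      rw [← measN_image ν hνD hF hinj hsep j (hAm j k) hAD]
      conv_rhs => rw [← (hT.2 k).2]
      rw [Measure.map_apply (hT.2 k).1 himg]
      refine measure_mono ?_
      intro x hx
      exact ⟨x, hx, hx.2.symm⟩
    have h2 := (hlow A (hAm j k) hAD).trans h1
    set q := (2 * N : ℝ≥0∞)⁻¹ * ν A with hq
    have hqfin : q ≠ ∞ := ENNReal.mul_ne_top hNinv' (measure_ne_top ν A)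
    rw [two_mul] at h2
    have h5 : q + q ≤ q + 0 := by simpa only [add_zero] using h2
    have h6 := (ENNReal.add_le_add_iff_left hqfin).1 h5
    have h7 : q = 0 := le_antisymm h6 bot_le
    exact (mul_eq_zero.1 h7).resolve_left hNinv
  have hac : ν ≪ measN ν F := by
    refine Measure.AbsolutelyContinuous.mk fun s hs h => ?_
    have h1 := hlow (s ∩ D) (hs.inter hD) inter_subset_right
    have h2 : measN ν F (s ∩ D) = 0 := measure_mono_null inter_subset_left h
    rw [h2] at h1
    have h3 := le_antisymm h1 bot_le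
    have h4 : ν (s ∩ D) = 0 := by
      rcases mul_eq_zero.1 h3 with h' | h'
      · exact absurd h' (by norm_num)
      · exact (mul_eq_zero.1 h').resolve_left hNinv
    refine le_antisymm ?_ bot_le
    calc ν s ≤ ν (s ∩ D ∪ Dᶜ) := by
          refine measure_mono fun x hx => ?_
          by_cases hxD : x ∈ D
          · exact Or.inl ⟨hx, hxD⟩
          · exact Or.inr hxD
      _ ≤ ν (s ∩ D) + ν Dᶜ := measure_union_le _ _
      _ = 0 := by rw [h4, hνD, add_zero]
  have hcon' := hac.ae_le hcon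
  have hDae : ∀ᵐ x ∂ν, x ∈ D := by rw [ae_iff]; exact hνD
  have hnot : ∀ᵐ x ∂ν, ∀ j k, ¬ (x ∈ D ∧ T k x = F j b x) := by
    rw [ae_all_iff]
    intro j
    rw [ae_all_iff]
    intro k
    rw [ae_iff]
    simp only [not_not]
    exact hzero j k
  have hT0 : T 0 = id := hT.1 0 (by simp)
  have hfalse : ∀ᵐ x ∂ν, False := by
    filter_upwards [hcon', hDae, hnot] with x h1 h2 h3
    have hx0 : T 0 x = x := by rw [hT0]; rfl
    obtain ⟨j, k, hk⟩ := hcontact (fun i => T i x) h1.1 (by simp only [hx0]; exact h2) h1.2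
    simp only [hx0] at hk
    exact h3 j k ⟨h2, hk⟩
  rw [ae_iff] at hfalse
  simp at hfalse

end Vale.Agent.P121.H414.K
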