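import Vale.Agent.P121.H414.K.A

set_option linter.all false

open Set
open scoped RealInnerProductSpace ENNReal

namespace Vale.Agent.P121.H414.K


section RealCost

variable {E : Type*} [NormedAddCommGroup E] [InnerProductSpace ℝ E] {N : ℕ} {kk : ℝ → ℝ} [Ker kk]

/-- the Coulomb energy of `N` points as a real number (correct when the points are distinct) -/
noncomputable def cRK (kk : ℝ → ℝ) (x : Fin N → E) : ℝ := 1 / 2 * ∑ i, ∑ j, kap kk (x i - x j)

lemma cRN_nonneg (x : Fin N → E) : 0 ≤ cRK kk x := by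
  unfold cRK
  refine mul_nonneg (by norm_num) (Finset.sum_nonneg fun i _ => Finset.sum_nonneg fun j _ => ?_)
  exact kap_nonneg _

lemma coulombN_eq_ofReal {x : Fin N → E} (hx : Function.Injective x) :
    costK kk x = ENNReal.ofReal (cRK kk x) := by
  have h : 2 * costK kk x = 2 * ENNReal.ofReal (cRK kk x) := by
    rw [two_coulombN]
    have h1 : ∀ i, ∑ j ∈ {i}ᶜ, pairCost kk (x j) (x i) =
        ENNReal.ofReal (∑ j, kap kk (x i - x j)) := by
      intro i
      rw [ENNReal.ofReal_sum_of_nonneg (fun j _ => kap_nonneg _),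
        ← Finset.sum_compl_add_sum {i} (fun j => ENNReal.ofReal (kap kk (x i - x j)))]
      rw [Finset.sum_singleton, sub_self, kap_zero, ENNReal.ofReal_zero, add_zero]
      refine Finset.sum_congr rfl fun j hj => ?_
      simp only [Finset.mem_compl, Finset.mem_singleton] at hj
      have hne : x i ≠ x j := fun h => hj (hx h.symm)
      rw [pairCost_comm, pairCost_ne hne, dist_eq_norm, kap_ne (sub_ne_zero.2 hne)]
    simp only [h1]
    rw [← ENNReal.ofReal_sum_of_nonneg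
      (fun i _ => Finset.sum_nonneg fun j _ => kap_nonneg _)]
    have h2 : (2 : ℝ≥0∞) = ENNReal.ofReal 2 := by norm_num
    rw [h2, ← ENNReal.ofReal_mul (by norm_num)]
    congr 1
    unfold cRK
    ring
  exact (ENNReal.mul_right_inj (by norm_num) (by norm_num)).1 h

lemma coulombN_eq_top {x : Fin N → E} (hx : ¬ Function.Injective x) : costK kk x = ∞ := by
  have h : 2 * costK kk x = ∞ := by
    rw [two_coulombN]
    simp only [Function.Injective, not_forall] at hx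
    obtain ⟨i, j, hij, hne⟩ := hx
    rw [ENNReal.sum_eq_top]
    refine ⟨i, Finset.mem_univ i, ?_⟩
    rw [ENNReal.sum_eq_top]
    refine ⟨j, ?_, ?_⟩
    · simp only [Finset.mem_compl, Finset.mem_singleton]
      exact fun h => hne h.symm
    · rw [hij, pairCost_self]
  by_contra hne
  exact ENNReal.mul_ne_top (by norm_num) hne h

end RealCost

section Key

variable {E : Type*} [NormedAddCommGroup E] [InnerProductSpace ℝ E] {N : ℕ} {kk : ℝ → ℝ} [Ker kk]

/-- total repulsive field on particle `i` (this is the gradient of the energy). -/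
noncomputable def forceK (kk : ℝ → ℝ) (x : Fin N → E) (i : Fin N) : E := ∑ j, GK kk (x j - x i)


/-- pairwise tangent inequality, including the diagonal. -/
lemma pair_tangent (a b c d : E) (h : a = b ↔ c = d) :
    kap kk (c - d) - ⟪GK kk (c - d), (a - c) - (b - d)⟫ - ‖(a - c) - (b - d)‖ ^ 2 * (gk kk ‖c - d‖ / ‖c - d‖ / 2)
      ≤ kap kk (a - b) := by
  by_cases hcd : c = d
  · have hab := h.2 hcd
    subst hcd
    subst hab
    simp [GK_zero]
  · have hab : a ≠ b := fun hh => hcd (h.1 hh)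
    have := kap_tangent (kk := kk) (a - b) (c - d) (sub_ne_zero.mpr hab) (sub_ne_zero.mpr hcd)
    have e : a - b - (c - d) = (a - c) - (b - d) := by abel
    rwa [e] at this

theorem cRN_tangent (kk : ℝ → ℝ) [Ker kk] {x y : Fin N → E} (hx : Function.Injective x) (hy : Function.Injective y)
    {r : ℝ} (hr : 0 < r) (hsep : ∀ i j, i ≠ j → r ≤ ‖x i - x j‖) :
    cRK kk x + ∑ i, ⟪forceK kk x i, y i - x i⟫ - N * (gk kk r / r) * ∑ i, ‖y i - x i‖ ^ 2 ≤ cRK kk y := by
  set Δ : Fin N → E := fun i => y i - x i with hΔ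
  have h1 : ∀ i j, kap kk (x i - x j) - ⟪GK kk (x i - x j), Δ i - Δ j⟫ -
      (‖Δ i‖ ^ 2 + ‖Δ j‖ ^ 2) * (gk kk r / r) ≤ kap kk (y i - y j) := by
    intro i j
    have h2 := pair_tangent (kk := kk) (y i) (y j) (x i) (x j)
      ⟨fun h => by rw [hy h], fun h => by rw [hx h]⟩
    have h3 : ‖Δ i - Δ j‖ ^ 2 ≤ 2 * (‖Δ i‖ ^ 2 + ‖Δ j‖ ^ 2) := by
      have h1 := norm_sub_le (Δ i) (Δ j)
      have h0 := norm_nonneg (Δ i - Δ j)
      nlinarith only [h1, h0, sq_nonneg (‖Δ i‖ - ‖Δ j‖)]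
    have h4 : ‖Δ i - Δ j‖ ^ 2 * (gk kk ‖x i - x j‖ / ‖x i - x j‖ / 2) ≤ (‖Δ i‖ ^ 2 + ‖Δ j‖ ^ 2) * (gk kk r / r) := by
      have hc0 : 0 < gk kk r / r := div_pos (gk_pos hr) hr
      by_cases hij : i = j
      · subst hij
        rw [sub_self (x i), norm_zero, div_zero, zero_div, mul_zero]
        positivity
      · have h5 : gk kk ‖x i - x j‖ / ‖x i - x j‖ ≤ gk kk r / r := cc_mono hr (hsep i j hij)
        have h6 : 0 ≤ ‖Δ i - Δ j‖ ^ 2 := by positivity
        have h7 : 0 ≤ gk kk ‖x i - x j‖ / ‖x i - x j‖ := by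
          have : 0 < ‖x i - x j‖ := lt_of_lt_of_le hr (hsep i j hij)
          exact (div_pos (gk_pos this) this).le
        nlinarith only [h3, h5, h6, h7, hc0, mul_le_mul h3 h5 h7 (by positivity)]
    have h6 : y i - x i - (y j - x j) = Δ i - Δ j := rfl
    rw [h6] at h2
    linarith only [h2, h4]
  have h2 : ∑ i, ∑ j, (kap kk (x i - x j) - ⟪GK kk (x i - x j), Δ i - Δ j⟫ -
      (‖Δ i‖ ^ 2 + ‖Δ j‖ ^ 2) * (gk kk r / r)) ≤ ∑ i, ∑ j, kap kk (y i - y j) :=
    Finset.sum_le_sum fun i _ => Finset.sum_le_sum fun j _ => h1 i j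
  simp only [Finset.sum_sub_distrib, inner_sub_right] at h2
  have h3 : ∑ i, ∑ j, ⟪GK kk (x i - x j), Δ j⟫ = ∑ i, ⟪forceK kk x i, Δ i⟫ := by
    rw [Finset.sum_comm]
    refine Finset.sum_congr rfl fun i _ => ?_
    rw [forceK, sum_inner]
  have h4 : ∑ i, ∑ j, ⟪GK kk (x i - x j), Δ i⟫ = - ∑ i, ⟪forceK kk x i, Δ i⟫ := by
    rw [← Finset.sum_neg_distrib]
    refine Finset.sum_congr rfl fun i _ => ?_
    rw [forceK, sum_inner, ← Finset.sum_neg_distrib]
    refine Finset.sum_congr rfl fun j _ => ?_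
    rw [GK_sub_comm, inner_neg_left]
  have h5 : ∑ i, ∑ j, (‖Δ i‖ ^ 2 + ‖Δ j‖ ^ 2) * (gk kk r / r) = 2 * N * (gk kk r / r) * ∑ i, ‖Δ i‖ ^ 2 := by
    have : ∀ i j, (‖Δ i‖ ^ 2 + ‖Δ j‖ ^ 2) * (gk kk r / r) =
        ‖Δ i‖ ^ 2 * (gk kk r / r) + ‖Δ j‖ ^ 2 * (gk kk r / r) :=
      fun i j => add_mul _ _ _
    simp only [this, Finset.sum_add_distrib, Finset.sum_const, Finset.card_univ,
      Fintype.card_fin, nsmul_eq_mul]
    rw [← Finset.mul_sum, ← Finset.sum_mul]
    ring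
  rw [h3, h4, h5] at h2
  unfold cRK
  have h6 : (N : ℝ) * (gk kk r / r) * ∑ i, ‖Δ i‖ ^ 2 = 1 / 2 * (2 * N * (gk kk r / r) * ∑ i, ‖Δ i‖ ^ 2) := by ring
  rw [h6]
  linarith

/-- The key inequality: if `x` is critical for all particles except `l`, then it minimises
energy minus potentials among all configurations with the same `l`-th particle. -/
theorem key_ineqN {x y : Fin N → E} (hx : Function.Injective x) (hy : Function.Injective y)
    {r : ℝ} (hr : 0 < r) (hsep : ∀ i j, i ≠ j → r ≤ ‖x i - x j‖) (l : Fin N) (hl : y l = x l)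
    (W : Fin N → ℝ) (h s : Fin N → E) (p : ℝ)
    (hcrit : ∀ i, i ≠ l → forceK kk x i = h i - p • (x i - s i)) :
    (cRK kk x - ∑ i ∈ {l}ᶜ, quad (W i) (h i) (s i) p (x i)) +
      (p / 2 - N * (gk kk r / r)) * ∑ i ∈ {l}ᶜ, ‖y i - x i‖ ^ 2 ≤
    cRK kk y - ∑ i ∈ {l}ᶜ, quad (W i) (h i) (s i) p (y i) := by
  have h1 := cRN_tangent kk hx hy hr hsep
  have h2 : ∑ i, ⟪forceK kk x i, y i - x i⟫ = ∑ i ∈ {l}ᶜ, ⟪forceK kk x i, y i - x i⟫ := by
    rw [← Finset.sum_compl_add_sum {l}, Finset.sum_singleton, hl, sub_self, inner_zero_right,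
      add_zero]
  have h3 : ∑ i, ‖y i - x i‖ ^ 2 = ∑ i ∈ {l}ᶜ, ‖y i - x i‖ ^ 2 := by
    rw [← Finset.sum_compl_add_sum {l}, Finset.sum_singleton, hl, sub_self, norm_zero]
    ring
  have h4 : ∑ i ∈ {l}ᶜ, quad (W i) (h i) (s i) p (y i) =
      ∑ i ∈ {l}ᶜ, quad (W i) (h i) (s i) p (x i) + ∑ i ∈ {l}ᶜ, ⟪forceK kk x i, y i - x i⟫ -
        p / 2 * ∑ i ∈ {l}ᶜ, ‖y i - x i‖ ^ 2 := by
    rw [Finset.mul_sum, ← Finset.sum_add_distrib, ← Finset.sum_sub_distrib]
    refine Finset.sum_congr rfl fun i hi => ?_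
    simp only [Finset.mem_compl, Finset.mem_singleton] at hi
    rw [hcrit i hi, ← quad_expand]
  rw [h2, h3] at h1
  rw [h4]
  linarith only [h1]

end Key

end Vale.Agent.P121.H414.K
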