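import Vale.Agent.P121.H414.K.B

set_option linter.all false

open Set Filter Topology Metric
open scoped RealInnerProductSpace NNReal ContDiff

namespace Vale.Agent.P121.H414.K

lemma exists_lip' {X Y : Type*} [NormedAddCommGroup X] [NormedSpace ℝ X] [NormedAddCommGroup Y]
    [NormedSpace ℝ Y] {f : X → Y} {x : X} (hf : ContDiffAt ℝ ∞ f x) :
    ∃ K > 0, ∃ ρ > 0, ∀ y ∈ closedBall x ρ, ∀ z ∈ closedBall x ρ, ‖f y - f z‖ ≤ K * ‖y - z‖ :=
  exists_lip (hf.of_le (by exact_mod_cast le_top))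


section Ginv

variable {E : Type*} [NormedAddCommGroup E] [InnerProductSpace ℝ E] {kk : ℝ → ℝ} [Ker kk]

lemma contDiffAt_G {x : E} (hx : x ≠ 0) : ContDiffAt ℝ ∞ (GK kk : E → E) x := smooth_GK hx

lemma contDiffAt_Ginv {x : E} (hx : x ≠ 0) : ContDiffAt ℝ ∞ (GinvK kk : E → E) x :=
  smooth_GinvK hx

end Ginv

section Force

variable {E : Type*} [NormedAddCommGroup E] [InnerProductSpace ℝ E] {N : ℕ} {kk : ℝ → ℝ} [Ker kk]

lemma cda (j : Fin N) (s : Fin N → E) : ContDiffAt ℝ ∞ (fun f : Fin N → E => f j) s :=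
  (contDiff_apply ℝ E j).contDiffAt

lemma contDiffAt_pair {F : Type*} [NormedAddCommGroup F] [NormedSpace ℝ F] {f g : F → E} {u : F}
    (hf : ContDiffAt ℝ ∞ f u) (hg : ContDiffAt ℝ ∞ g u) (hne : f u ≠ g u) :
    ContDiffAt ℝ ∞ (fun v => GK kk (f v - g v)) u := by
  have h1 : ContDiffAt ℝ ∞ (GK kk : E → E) (f u - g u) := contDiffAt_G (sub_ne_zero.2 hne)
  exact ContDiffAt.comp u h1 (hf.sub hg)

lemma contDiffAt_force {s : Fin N → E} (hs : Function.Injective s) :
    ContDiffAt ℝ ∞ (fun x : Fin N → E => forceK kk x) s := by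
  rw [contDiffAt_pi]
  intro i
  unfold forceK
  refine ContDiffAt.sum fun j _ => ?_
  by_cases hij : j = i
  · subst hij
    simp only [sub_self, GK_zero]
    exact contDiffAt_const
  · exact contDiffAt_pair (cda j s) (cda i s) (fun h => hij (hs h))

/-- the position of particle `l`, expressed by the other ones and the field at particle `i` -/
noncomputable def chiK (kk : ℝ → ℝ) (l i : Fin N) (y : Fin N → E) (v : E) : E :=
  y i + GinvK kk (v - ∑ j ∈ {l}ᶜ, GK kk (y j - y i))

lemma chi_force {x : Fin N → E} {l i : Fin N} (y : Fin N → E) (hy : ∀ j, j ≠ l → y j = x j)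
    (hil : i ≠ l) : chiK kk l i y (forceK kk x i) = x l := by
  have h1 : forceK kk x i = ∑ j ∈ {l}ᶜ, GK kk (y j - y i) + GK kk (x l - x i) := by
    rw [forceK, ← Finset.sum_compl_add_sum {l}, Finset.sum_singleton]
    congr 1
    refine Finset.sum_congr rfl fun j hj => ?_
    simp only [Finset.mem_compl, Finset.mem_singleton] at hj
    rw [hy j hj, hy i hil]
  rw [chiK, h1, add_sub_cancel_left, GinvK_GK, hy i hil]
  abel

lemma force_update_chi {l o : Fin N} (hol : o ≠ l) (y : Fin N → E) (w : E) :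
    forceK kk (Function.update y l (chiK kk l o y w)) o = w := by
  rw [forceK, ← Finset.sum_compl_add_sum {l}, Finset.sum_singleton]
  have h1 : ∑ j ∈ {l}ᶜ, GK kk (Function.update y l (chiK kk l o y w) j -
      Function.update y l (chiK kk l o y w) o) = ∑ j ∈ {l}ᶜ, GK kk (y j - y o) := by
    refine Finset.sum_congr rfl fun j hj => ?_
    simp only [Finset.mem_compl, Finset.mem_singleton] at hj
    rw [Function.update_of_ne hj, Function.update_of_ne hol]
  rw [h1, Function.update_self, Function.update_of_ne hol, chiK, add_sub_cancel_left, GK_GinvK]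
  abel

lemma contDiffAt_chi {s : Fin N → E} (hs : Function.Injective s) {l i : Fin N} (hil : i ≠ l) :
    ContDiffAt ℝ ∞ (fun u : (Fin N → E) × E => chiK kk l i u.1 u.2) (s, forceK kk s i) := by
  unfold chiK
  have hfst : ∀ j, ContDiffAt ℝ ∞ (fun u : (Fin N → E) × E => u.1 j) (s, forceK kk s i) := by
    intro j
    exact ContDiffAt.comp (s, forceK kk s i) (cda j s) contDiffAt_fst
  refine (hfst i).add ?_
  have harg : ContDiffAt ℝ ∞ (fun u : (Fin N → E) × E => u.2 - ∑ j ∈ {l}ᶜ, GK kk (u.1 j - u.1 i))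
      (s, forceK kk s i) := by
    refine contDiffAt_snd.sub (ContDiffAt.sum fun j _ => ?_)
    by_cases hij : j = i
    · subst hij
      simp only [sub_self, GK_zero]
      exact contDiffAt_const
    · exact contDiffAt_pair (hfst j) (hfst i) (fun h => hij (hs h))
  have hne : forceK kk s i - ∑ j ∈ {l}ᶜ, GK kk (s j - s i) ≠ 0 := by
    have h1 : forceK kk s i - ∑ j ∈ {l}ᶜ, GK kk (s j - s i) = GK kk (s l - s i) := by
      rw [forceK, ← Finset.sum_compl_add_sum {l}, Finset.sum_singleton, add_sub_cancel_left]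
    rw [h1]
    intro h0
    have h2 : s l - s i = 0 := by rw [← GinvK_GK (kk := kk) (s l - s i), h0]; simp [GinvK]
    exact hil (hs (sub_eq_zero.1 h2)).symm
  exact ContDiffAt.comp (s, forceK kk s i) (contDiffAt_Ginv hne) harg

lemma update_chi_base {s : Fin N → E} {l o : Fin N} (hol : o ≠ l) :
    Function.update s l (chiK kk l o s (forceK kk s o)) = s := by
  rw [chi_force s (fun _ _ => rfl) hol, Function.update_eq_self]

lemma contDiffAt_update {s : Fin N → E} (hs : Function.Injective s) {l o : Fin N} (hol : o ≠ l) :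
    ContDiffAt ℝ ∞ (fun u : (Fin N → E) × E => Function.update u.1 l (chiK kk l o u.1 u.2))
      (s, forceK kk s o) := by
  rw [contDiffAt_pi]
  intro i
  by_cases hi : i = l
  · subst hi
    simp only [Function.update_self]
    exact contDiffAt_chi hs hol
  · simp only [Function.update_of_ne hi]
    exact ContDiffAt.comp (s, forceK kk s o) (cda i s) contDiffAt_fst

lemma contDiffAt_H {s : Fin N → E} (hs : Function.Injective s) {l o : Fin N} (hol : o ≠ l) :
    ContDiffAt ℝ ∞ (fun u : (Fin N → E) × E => forceK kk (Function.update u.1 l (chiK kk l o u.1 u.2)))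
      (s, forceK kk s o) := by
  have h1 : ContDiffAt ℝ ∞ (fun x : Fin N → E => forceK kk x)
      (Function.update s l (chiK kk l o s (forceK kk s o))) := by
    rw [update_chi_base hol]
    exact contDiffAt_force hs
  exact ContDiffAt.comp (s, forceK kk s o) h1 (contDiffAt_update hs hol)

set_option maxHeartbeats 2000000 in
/-- The contact family near a reference configuration `s`, for strongly concave potentials. -/
theorem local_packageN [CompleteSpace E] {s : Fin N → E} (hs : Function.Injective s)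
    {o l : Fin N} (hol : o ≠ l) (h : Fin N → E) (hh : h o = forceK kk s o) {η : ℝ} (hη : 0 < η) :
    ∃ P₀ > 0, ∀ p ≥ P₀, ∃ δ > 0, ∃ Λ > 0, ∃ x : E → Fin N → E,
      (∀ a ∈ closedBall (s o) δ, x a o = a ∧ (∀ i, ‖x a i - s i‖ < η) ∧
        (∀ i, i ≠ l → forceK kk (x a) i = h i - p • (x a i - s i)) ∧
        (∀ i, i ≠ l → p * ‖x a i - s i‖ ^ 2 < η)) ∧
      (∀ a ∈ closedBall (s o) δ, ∀ a' ∈ closedBall (s o) δ, ∀ i,
        ‖a - a'‖ ≤ Λ * ‖x a i - x a' i‖) ∧
      ContinuousOn x (closedBall (s o) δ) := by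
  classical
  set w₀ := forceK kk s o with hw₀
  -- Lipschitz constants
  obtain ⟨K₁, hK₁, ρ₁, hρ₁, h₁⟩ := exists_lip' (contDiffAt_H (kk := kk) hs hol)
  obtain ⟨K₂, hK₂, ρ₂, hρ₂, h₂⟩ := exists_lip' (contDiffAt_update (kk := kk) hs hol)
  obtain ⟨K₃, hK₃, ρ₃, hρ₃, h₃⟩ := exists_lip' (contDiffAt_force (kk := kk) hs)
  have h4 : ∀ i : Fin N, ∃ K > 0, ∃ ρ > 0, i ≠ l →
      ∀ u ∈ closedBall ((s, forceK kk s i) : (Fin N → E) × E) ρ, ∀ v ∈ closedBall (s, forceK kk s i) ρ,
        ‖chiK kk l i u.1 u.2 - chiK kk l i v.1 v.2‖ ≤ K * ‖u - v‖ := by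
    intro i
    by_cases hi : i = l
    · exact ⟨1, one_pos, 1, one_pos, fun hh => absurd hi hh⟩
    · obtain ⟨K, hK, ρ, hρ, hL⟩ := exists_lip' (contDiffAt_chi (kk := kk) hs hi)
      exact ⟨K, hK, ρ, hρ, fun _ => hL⟩
  choose K₄ hK₄ ρ₄ hρ₄ h₄ using h4
  obtain ⟨K, hK1, hKK₁, hKK₂, hKK₃, hKK₄⟩ : ∃ K : ℝ, 1 ≤ K ∧ K₁ ≤ K ∧ K₂ ≤ K ∧ K₃ ≤ K ∧
      ∀ i, K₄ i ≤ K := by
    have : ∀ᶠ K in (atTop : Filter ℝ), 1 ≤ K ∧ K₁ ≤ K ∧ K₂ ≤ K ∧ K₃ ≤ K ∧ ∀ i, K₄ i ≤ K := by
      filter_upwards [eventually_ge_atTop 1, eventually_ge_atTop K₁, eventually_ge_atTop K₂,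
        eventually_ge_atTop K₃, eventually_all.2 fun i => eventually_ge_atTop (K₄ i)]
        with K a b c d e using ⟨a, b, c, d, e⟩
    exact this.exists
  obtain ⟨ρ, hρ, hρρ₁, hρρ₂, hρρ₃, hρρ₄⟩ : ∃ ρ : ℝ, 0 < ρ ∧ ρ ≤ ρ₁ ∧ ρ ≤ ρ₂ ∧ ρ ≤ ρ₃ ∧
      ∀ i, ρ ≤ ρ₄ i := by
    have hle : ∀ c : ℝ, 0 < c → ∀ᶠ ρ in 𝓝[>] (0 : ℝ), ρ ≤ c := fun c hc =>
      nhdsWithin_le_nhds (eventually_le_nhds hc)
    have : ∀ᶠ ρ in 𝓝[>] (0 : ℝ), 0 < ρ ∧ ρ ≤ ρ₁ ∧ ρ ≤ ρ₂ ∧ ρ ≤ ρ₃ ∧ ∀ i, ρ ≤ ρ₄ i := by
      filter_upwards [self_mem_nhdsWithin, hle ρ₁ hρ₁, hle ρ₂ hρ₂, hle ρ₃ hρ₃,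
        eventually_all.2 fun i => hle (ρ₄ i) (hρ₄ i)] with ρ a b c d e using ⟨a, b, c, d, e⟩
    exact this.exists
  have hK : 0 < K := by linarith only [hK1]
  -- the Lipschitz estimates with common constants
  set H : (Fin N → E) × E → (Fin N → E) :=
    fun u => forceK kk (Function.update u.1 l (chiK kk l o u.1 u.2)) with hH
  set Upd : (Fin N → E) × E → (Fin N → E) :=
    fun u => Function.update u.1 l (chiK kk l o u.1 u.2) with hUpd
  have L₁ : ∀ u ∈ closedBall (s, w₀) ρ, ∀ v ∈ closedBall (s, w₀) ρ,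
      ‖H u - H v‖ ≤ K * ‖u - v‖ := fun u hu v hv =>
    (h₁ u (closedBall_subset_closedBall hρρ₁ hu) v (closedBall_subset_closedBall hρρ₁ hv)).trans
      (by (clear * - hKK₁; gcongr))
  have L₂ : ∀ u ∈ closedBall (s, w₀) ρ, ∀ v ∈ closedBall (s, w₀) ρ,
      ‖Upd u - Upd v‖ ≤ K * ‖u - v‖ := fun u hu v hv =>
    (h₂ u (closedBall_subset_closedBall hρρ₂ hu) v (closedBall_subset_closedBall hρρ₂ hv)).trans
      (by (clear * - hKK₂; gcongr))
  have L₃ : ∀ u ∈ closedBall s ρ, ∀ v ∈ closedBall s ρ,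
      ‖forceK kk u - forceK kk v‖ ≤ K * ‖u - v‖ := fun u hu v hv =>
    (h₃ u (closedBall_subset_closedBall hρρ₃ hu) v (closedBall_subset_closedBall hρρ₃ hv)).trans
      (by gcongr)
  have L₄ : ∀ i, i ≠ l → ∀ u ∈ closedBall ((s, forceK kk s i) : (Fin N → E) × E) ρ,
      ∀ v ∈ closedBall ((s, forceK kk s i) : (Fin N → E) × E) ρ,
      ‖chiK kk l i u.1 u.2 - chiK kk l i v.1 v.2‖ ≤ K * ‖u - v‖ := fun i hi u hu v hv =>
    (h₄ i hi u (closedBall_subset_closedBall (hρρ₄ i) hu) v
      (closedBall_subset_closedBall (hρρ₄ i) hv)).trans (by gcongr; exact hKK₄ i)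
  have hUpd0 : Upd (s, w₀) = s := update_chi_base hol
  -- scales
  set B : ℝ := ‖h - H (s, w₀)‖ + K * ρ with hB
  have hB0 : 0 < B := by (clear * - hK1 hρ; positivity)
  set η' : ℝ := min η (ρ / K) with hη'
  have hη'0 : 0 < η' := lt_min hη (by (clear * - hρ hK1; positivity))
  set δw : ℝ := min ρ (η' / (2 * K)) with hδw
  have hδw0 : 0 < δw := lt_min hρ (by (clear * - hη hρ hK1; positivity))
  have hev : ∀ᶠ p in (atTop : Filter ℝ), 2 * (K ^ 2 + K ^ 3) ≤ p ∧ B / p ≤ ρ ∧
      B / p ≤ η' / (2 * K) ∧ B ^ 2 / p < η := by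
    have t1 : Tendsto (fun p : ℝ => B / p) atTop (𝓝 0) := tendsto_const_nhds.div_atTop tendsto_id
    have t2 : Tendsto (fun p : ℝ => B ^ 2 / p) atTop (𝓝 0) :=
      tendsto_const_nhds.div_atTop tendsto_id
    filter_upwards [eventually_ge_atTop (2 * (K ^ 2 + K ^ 3)), t1.eventually_le_const hρ,
      t1.eventually_le_const (show 0 < η' / (2 * K) by (clear * - hη hρ hK1; positivity)), t2.eventually_lt_const hη]
      with p a b c d using ⟨a, b, c, d⟩
  obtain ⟨P, hP⟩ := eventually_atTop.1 hev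
  refine ⟨max P 1, by (clear * -; positivity), fun p hp => ?_⟩
  obtain ⟨hpK, hpρ, hpη, hpB⟩ := hP p ((le_max_left _ _).trans hp)
  have hp0 : 0 < p := lt_of_lt_of_le one_pos ((le_max_right _ _).trans hp)
  have hK2 : 1 ≤ K ^ 2 := one_le_pow₀ hK1
  have hK3 : K ≤ K ^ 3 := by nlinarith only [hK2, hK1]
  have hp2K : 2 * K ≤ p := by nlinarith only [hpK, hK3]
  -- fixed points
  have hfp := fixed_point_package hK hρ L₁ h hp2K hpρ
  choose! Y hYmem hYeq hYbd using hfp
  set wl : E → E := fun a => h o - p • (a - s o) with hwl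
  set x : E → Fin N → E := fun a => Upd (Y (wl a), wl a) with hx
  have hwl1 : ∀ a a' : E, ‖wl a - wl a'‖ = p * ‖a - a'‖ := by
    intro a a'
    have e : wl a - wl a' = p • (a' - a) := by
      simp only [hwl, smul_sub]; abel
    rw [e, norm_smul, Real.norm_of_nonneg hp0.le, norm_sub_rev]
  have hwl0 : wl (s o) = w₀ := by simp [hwl, hh]
  have hwlmem : ∀ a ∈ closedBall (s o) (δw / p), ‖wl a - w₀‖ ≤ δw := by
    intro a ha
    rw [← hwl0, hwl1]
    have : ‖a - s o‖ ≤ δw / p := by rw [← dist_eq_norm]; exact ha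
    calc p * ‖a - s o‖ ≤ p * (δw / p) := by (clear * - this hp0; gcongr)
      _ = δw := by (clear * - hp0 hδw0; field_simp)
  have hwlρ : ∀ a ∈ closedBall (s o) (δw / p), wl a ∈ closedBall w₀ ρ := by
    intro a ha
    rw [mem_closedBall, dist_eq_norm]
    exact (hwlmem a ha).trans (min_le_left _ _)
  have hpair : ∀ a ∈ closedBall (s o) (δw / p),
      ((Y (wl a), wl a) : (Fin N → E) × E) ∈ closedBall (s, w₀) ρ := by
    intro a ha
    rw [mem_closedBall, Prod.dist_eq]
    exact max_le (hYmem _ (hwlρ a ha)) (hwlρ a ha)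
  have hbase : ((s, w₀) : (Fin N → E) × E) ∈ closedBall (s, w₀) ρ := mem_closedBall_self hρ.le
  -- closeness
  have hclose : ∀ a ∈ closedBall (s o) (δw / p), ‖x a - s‖ ≤ η' / 2 := by
    intro a ha
    have e1 := L₂ _ (hpair a ha) _ hbase
    rw [hUpd0] at e1
    refine e1.trans ?_
    have e2 : ‖((Y (wl a), wl a) : (Fin N → E) × E) - (s, w₀)‖ ≤ η' / (2 * K) := by
      rw [Prod.mk_sub_mk, Prod.norm_def]
      refine max_le ?_ ?_
      · exact (hYbd _ (hwlρ a ha)).trans hpη
      · exact (hwlmem a ha).trans (min_le_right _ _)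
    calc K * ‖((Y (wl a), wl a) : (Fin N → E) × E) - (s, w₀)‖ ≤ K * (η' / (2 * K)) := by (clear * - e2 hK1; gcongr)
      _ = η' / 2 := by (clear * - hK1 hη'0; field_simp)
  have hη'ρ : K * η' ≤ ρ := by
    calc K * η' ≤ K * (ρ / K) := by gcongr; exact min_le_right _ _
      _ = ρ := by (clear * - hK1 hρ; field_simp)
  have hη'ρ' : η' ≤ ρ := by nlinarith only [hη'ρ, hK1, hη'0]
  have hxs : ∀ a ∈ closedBall (s o) (δw / p), x a ∈ closedBall s ρ := by
    intro a ha
    rw [mem_closedBall, dist_eq_norm]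
    have := hclose a ha
    linarith only [hρ, hη'ρ', this]
  have hsρ : s ∈ closedBall s ρ := mem_closedBall_self hρ.le
  -- equations
  have hxi : ∀ a, ∀ i, i ≠ l → x a i = Y (wl a) i := by
    intro a i hi
    simp only [hx, hUpd]
    rw [Function.update_of_ne hi]
  have hYi : ∀ a ∈ closedBall (s o) (δw / p), ∀ i,
      Y (wl a) i = s i + p⁻¹ • (h i - forceK kk (x a) i) := by
    intro a ha i
    have := congrFun (hYeq _ (hwlρ a ha)) i
    simpa only [Pi.add_apply, Pi.smul_apply, Pi.sub_apply] using this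
  have hforceo : ∀ a, forceK kk (x a) o = wl a := by
    intro a
    exact force_update_chi hol _ _
  have hcrit : ∀ a ∈ closedBall (s o) (δw / p), ∀ i, i ≠ l →
      forceK kk (x a) i = h i - p • (x a i - s i) := by
    intro a ha i hi
    rw [hxi a i hi, hYi a ha i, add_sub_cancel_left, smul_smul, mul_inv_cancel₀ hp0.ne', one_smul]
    abel
  have hxo : ∀ a ∈ closedBall (s o) (δw / p), x a o = a := by
    intro a ha
    rw [hxi a o hol, hYi a ha o, hforceo a]
    simp only [hwl]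
    rw [sub_sub_cancel, smul_smul, inv_mul_cancel₀ hp0.ne', one_smul]
    abel
  have hYY : ∀ a ∈ closedBall (s o) (δw / p), ∀ a' ∈ closedBall (s o) (δw / p),
      ‖Y (wl a) - Y (wl a')‖ ≤ K * ‖a - a'‖ := by
    intro a ha a' ha'
    have := fixed_point_lip hK L₁ h hp2K (hwlρ a ha) (hwlρ a' ha') (hYmem _ (hwlρ a ha))
      (hYmem _ (hwlρ a' ha')) (hYeq _ (hwlρ a ha)) (hYeq _ (hwlρ a' ha'))
    rw [hwl1] at this
    calc ‖Y (wl a) - Y (wl a')‖ ≤ K / p * (p * ‖a - a'‖) := this
      _ = K * ‖a - a'‖ := by (clear * - hp0 hK1; field_simp)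
  have hl : ∀ a ∈ closedBall (s o) (δw / p), ∀ a' ∈ closedBall (s o) (δw / p),
      (p - K ^ 2) * ‖a - a'‖ ≤ K * ‖x a l - x a' l‖ := by
    intro a ha a' ha'
    have e1 : p * ‖a - a'‖ ≤ K * ‖x a - x a'‖ := by
      rw [← hwl1, ← hforceo, ← hforceo]
      refine le_trans ?_ (L₃ _ (hxs a ha) _ (hxs a' ha'))
      exact norm_le_pi_norm (forceK kk (x a) - forceK kk (x a')) o
    have e2 : ‖x a - x a'‖ ≤ K * ‖a - a'‖ + ‖x a l - x a' l‖ := by
      rw [pi_norm_le_iff_of_nonneg (by (clear * - hK1; positivity))]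
      intro j
      by_cases hj : j = l
      · subst hj
        rw [Pi.sub_apply]
        have : 0 ≤ K * ‖a - a'‖ := by (clear * - hK1; positivity)
        linarith only [this]
      · rw [Pi.sub_apply, hxi a j hj, hxi a' j hj]
        have e3 := norm_le_pi_norm (Y (wl a) - Y (wl a')) j
        rw [Pi.sub_apply] at e3
        have := norm_nonneg (x a l - x a' l)
        have := hYY a ha a' ha'
        (clear hs hol hw₀ hK₁ hρ₁ K₂ hK₂ ρ₂ hρ₂ h₂ K₃ hK₃ ρ₃ hρ₃ h₃ K₄ hK₄ ρ₄ hρ₄ h₄ hKK₂ hKK₃ hKK₄ hρρ₂ hρρ₃ hρρ₄ hH hUpd L₂ L₃ L₄ hUpd0 B hB hB0 hη' hη'0 hδw hev hP hpρ hpη hpB hYbd hx hpair hbase hclose hη'ρ hη'ρ' hxs hsρ hxi hYi hforceo hcrit hxo e1 hj; linarith)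
    nlinarith only [e1, e2, hK1]
  refine ⟨δw / p, by (clear * - hρ hη hK1 hp0; positivity), 2 * K ^ 2, by positivity, x, ?_, ?_, ?_⟩
  · intro a ha
    refine ⟨hxo a ha, ?_, hcrit a ha, ?_⟩
    · intro i
      have e1 := norm_le_pi_norm (x a - s) i
      rw [Pi.sub_apply] at e1
      have e2 := hclose a ha
      have e3 : η' ≤ η := min_le_left _ _
      linarith only [hη, e1, e2, e3]
    · intro i hi
      have e1 : ‖x a i - s i‖ ≤ B / p := by
        rw [hxi a i hi]
        have e1 := norm_le_pi_norm (Y (wl a) - s) i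
        rw [Pi.sub_apply] at e1
        exact e1.trans (hYbd _ (hwlρ a ha))
      calc p * ‖x a i - s i‖ ^ 2 ≤ p * (B / p) ^ 2 := by (clear * - e1 hp0; gcongr)
        _ = B ^ 2 / p := by (clear * - hB0 hp0; field_simp)
        _ < η := hpB
  · intro a ha a' ha' i
    by_cases hi : i = l
    · subst hi
      have e1 := hl a ha a' ha'
      have e2 : K * ‖a - a'‖ ≤ (p - K ^ 2) * ‖a - a'‖ := by
        gcongr
        nlinarith only [hpK, hK3]
      have e3 : K * ‖a - a'‖ ≤ K * ‖x a i - x a' i‖ := e2.trans e1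
      have e4 : ‖a - a'‖ ≤ ‖x a i - x a' i‖ := le_of_mul_le_mul_left e3 hK
      have e5 := norm_nonneg (x a i - x a' i)
      nlinarith only [e4, e5, hK2]
    · have hchi : ∀ a, chiK kk l i (Y (wl a)) (forceK kk (x a) i) = x a l := fun a =>
        chi_force (x := x a) (Y (wl a)) (fun j hj => (hxi a j hj).symm) hi
      have hmem : ∀ a ∈ closedBall (s o) (δw / p),
          ((Y (wl a), forceK kk (x a) i) : (Fin N → E) × E) ∈ closedBall (s, forceK kk s i) ρ := by
        intro a ha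
        rw [mem_closedBall, Prod.dist_eq]
        refine max_le (hYmem _ (hwlρ a ha)) ?_
        simp only
        rw [dist_eq_norm]
        have e1 := norm_le_pi_norm (forceK kk (x a) - forceK kk s) i
        rw [Pi.sub_apply] at e1
        have e2 := L₃ _ (hxs a ha) _ hsρ
        have e3 : K * ‖x a - s‖ ≤ K * (η' / 2) := by gcongr; exact hclose a ha
        have e4 : 0 < K * η' := by (clear * - hK1 hη hρ; positivity)
        linarith only [hρ, hη'ρ, e1, e2, e3]
      have e1 : ‖x a l - x a' l‖ ≤ K * (K * ‖a - a'‖ + p * ‖x a i - x a' i‖) := by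
        have e2 := L₄ i hi _ (hmem a ha) _ (hmem a' ha')
        simp only [hchi] at e2
        refine e2.trans ?_
        gcongr
        rw [Prod.mk_sub_mk, Prod.norm_def]
        have e3 : ‖forceK kk (x a) i - forceK kk (x a') i‖ = p * ‖x a i - x a' i‖ := by
          rw [hcrit a ha i hi, hcrit a' ha' i hi]
          have : h i - p • (x a i - s i) - (h i - p • (x a' i - s i)) =
              p • (x a' i - x a i) := by
            simp only [smul_sub]; abel
          rw [this, norm_smul, Real.norm_of_nonneg hp0.le, norm_sub_rev]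
        refine max_le ?_ ?_
        · have := hYY a ha a' ha'
          have h5 : 0 ≤ p * ‖x a i - x a' i‖ := by (clear * - hp0; positivity)
          simp only
          linarith only [this, h5]
        · simp only
          rw [e3]
          have h5 : 0 ≤ K * ‖a - a'‖ := by (clear * - hK1; positivity)
          linarith only [h5]
      have e2 := hl a ha a' ha'
      have e3 : K * ‖x a l - x a' l‖ ≤ K * (K * (K * ‖a - a'‖ + p * ‖x a i - x a' i‖)) := by
        (clear * - e1 hK1; gcongr)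
      have e4 : (p - K ^ 2 - K ^ 3) * ‖a - a'‖ ≤ K ^ 2 * p * ‖x a i - x a' i‖ := by
        nlinarith only [e2, e3]
      have e5 : p / 2 * ‖a - a'‖ ≤ (p - K ^ 2 - K ^ 3) * ‖a - a'‖ := by
        gcongr
        linarith only [hpK]
      have e6 : p * ‖a - a'‖ ≤ p * (2 * K ^ 2 * ‖x a i - x a' i‖) := by
        nlinarith only [e2, e3, e5]
      exact le_of_mul_le_mul_left e6 hp0
  · have hLip : LipschitzOnWith (Real.toNNReal (K * (K + p))) x (closedBall (s o) (δw / p)) := by
      refine LipschitzOnWith.of_dist_le_mul fun a ha a' ha' => ?_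
      rw [Real.coe_toNNReal _ (by (clear * - hK1 hp0; positivity)), dist_eq_norm, dist_eq_norm]
      have e1 := L₂ _ (hpair a ha) _ (hpair a' ha')
      refine e1.trans ?_
      rw [mul_assoc]
      gcongr
      rw [Prod.mk_sub_mk, Prod.norm_def]
      simp only
      rw [hwl1]
      have h1 := hYY a ha a' ha'
      have h2 : 0 ≤ p * ‖a - a'‖ := by (clear * - hp0; positivity)
      have h3 : 0 ≤ K * ‖a - a'‖ := by (clear * - hK1; positivity)
      refine max_le ?_ ?_ <;> nlinarith only [h1, h2, h3]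
    exact hLip.continuousOn

/-- the system of critical equations, together with the field at particle `o` -/
noncomputable def ThK (kk : ℝ → ℝ) (p : ℝ) (s : Fin N → E) (o l : Fin N) (z : Fin N → E) (i : Fin N) : E :=
  if i = l then forceK kk z o else forceK kk z i + p • (z i - s i)

lemma cdo_Th (p : ℝ) (s : Fin N → E) (o l : Fin N) {z : Fin N → E} (hz : Function.Injective z) :
    ContDiffAt ℝ ∞ (ThK kk p s o l) z := by
  have hfo := contDiffAt_force (kk := kk) hz
  rw [contDiffAt_pi] at hfo ⊢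
  intro i
  by_cases hi : i = l
  · have : (fun z : Fin N → E => ThK kk p s o l z i) = fun z => forceK kk z o := by
      funext z
      unfold ThK
      rw [if_pos hi]
    rw [this]
    exact hfo o
  · have : (fun z : Fin N → E => ThK kk p s o l z i) = fun z => forceK kk z i + p • (z i - s i) := by
      funext z
      unfold ThK
      rw [if_neg hi]
    rw [this]
    exact (hfo i).add (contDiffAt_const.smul ((cda i z).sub contDiffAt_const))

/-- `ThK kk` increases distances near the reference configuration -/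
lemma exists_antilip {s : Fin N → E} (hs : Function.Injective s) {o l : Fin N} (hol : o ≠ l) :
    ∃ ρ > 0, ∃ P > 0, ∃ K > 0, ∀ p ≥ P, ∀ z ∈ ball s ρ, ∀ z' ∈ ball s ρ,
      ‖z - z'‖ ≤ K * ‖ThK kk p s o l z - ThK kk p s o l z'‖ := by
  obtain ⟨K₁, hK₁, ρ₁, hρ₁, h₁⟩ := exists_lip' (contDiffAt_force (kk := kk) hs)
  obtain ⟨K₂, hK₂, ρ₂, hρ₂, h₂⟩ := exists_lip' (contDiffAt_chi (kk := kk) hs hol)
  set K : ℝ := max 1 (max K₁ K₂) with hK
  have hK1 : 1 ≤ K := le_max_left _ _
  have hKK₁ : K₁ ≤ K := (le_max_left _ _).trans (le_max_right _ _)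
  have hKK₂ : K₂ ≤ K := (le_max_right _ _).trans (le_max_right _ _)
  have hK0 : 0 < K := by linarith only [hK1]
  set ρ₀ : ℝ := min ρ₁ ρ₂ with hρ₀
  have hρ₀0 : 0 < ρ₀ := lt_min hρ₁ hρ₂
  have hρK : ρ₀ / K ≤ ρ₀ := by
    rw [div_le_iff₀ hK0]
    nlinarith only [hK1, hρ₀0]
  refine ⟨ρ₀ / K, by positivity, 2 * K ^ 2, by positivity, K, hK0, ?_⟩
  intro p hp z hz z' hz'
  have hsρ : s ∈ closedBall s ρ₁ := mem_closedBall_self hρ₁.le
  have L₁ : ∀ u ∈ ball s (ρ₀ / K), ∀ v ∈ ball s (ρ₀ / K), ‖forceK kk u - forceK kk v‖ ≤ K * ‖u - v‖ := by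
    intro u hu v hv
    have hu' : u ∈ closedBall s ρ₁ := by
      rw [mem_closedBall]
      rw [mem_ball] at hu
      have : ρ₀ ≤ ρ₁ := min_le_left _ _
      linarith only [hu, this, hρK]
    have hv' : v ∈ closedBall s ρ₁ := by
      rw [mem_closedBall]
      rw [mem_ball] at hv
      have : ρ₀ ≤ ρ₁ := min_le_left _ _
      linarith only [hv, this, hρK]
    exact (h₁ u hu' v hv').trans (by gcongr)
  have hsb : s ∈ ball s (ρ₀ / K) := mem_ball_self (by positivity)
  -- the configuration with the position of particle `l` replaced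
  have key : ∀ u ∈ ball s (ρ₀ / K), ∀ v ∈ ball s (ρ₀ / K),
      ‖u l - v l‖ ≤ K * ‖((Function.update u l (s l), forceK kk u o) : (Fin N → E) × E) -
        (Function.update v l (s l), forceK kk v o)‖ := by
    have hmem : ∀ u ∈ ball s (ρ₀ / K), ((Function.update u l (s l), forceK kk u o) :
        (Fin N → E) × E) ∈ closedBall (s, forceK kk s o) ρ₂ := by
      intro u hu
      rw [mem_closedBall, Prod.dist_eq]
      refine max_le ?_ ?_
      · simp only
        rw [dist_pi_le_iff hρ₂.le]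
        intro i
        by_cases hi : i = l
        · subst hi
          rw [Function.update_self, dist_self]
          exact hρ₂.le
        · rw [Function.update_of_ne hi]
          have h1 := dist_le_pi_dist u s i
          rw [mem_ball] at hu
          have : ρ₀ ≤ ρ₂ := min_le_right _ _
          linarith only [hu, h1, this, hρK]
      · simp only
        rw [dist_eq_norm]
        have e1 := norm_le_pi_norm (forceK kk u - forceK kk s) o
        rw [Pi.sub_apply] at e1
        have e2 := L₁ u hu s hsb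
        rw [mem_ball, dist_eq_norm] at hu
        have e3 : K * ‖u - s‖ ≤ K * (ρ₀ / K) := by gcongr
        have e4 : K * (ρ₀ / K) = ρ₀ := by field_simp
        have : ρ₀ ≤ ρ₂ := min_le_right _ _
        linarith only [e1, e2, e3, e4, this]
    intro u hu v hv
    have h3 := h₂ _ (hmem u hu) _ (hmem v hv)
    have hc : ∀ u : Fin N → E, chiK kk l o (Function.update u l (s l)) (forceK kk u o) = u l := by
      intro u
      refine chi_force _ (fun j hj => ?_) hol
      rw [Function.update_of_ne hj]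
    simp only [hc] at h3
    exact h3.trans (by gcongr)
  set T := ‖ThK kk p s o l z - ThK kk p s o l z'‖ with hT
  have hT0 : 0 ≤ T := norm_nonneg _
  have hp0 : 0 < p := lt_of_lt_of_le (by positivity) hp
  have hZ0 : 0 ≤ ‖z - z'‖ := norm_nonneg _
  have hTl : ‖forceK kk z o - forceK kk z' o‖ ≤ T := by
    have := norm_le_pi_norm (ThK kk p s o l z - ThK kk p s o l z') l
    rw [Pi.sub_apply] at this
    unfold ThK at this
    rw [if_pos rfl, if_pos rfl] at this
    exact this
  have hi : ∀ i, i ≠ l → p * ‖z i - z' i‖ ≤ T + K * ‖z - z'‖ := by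
    intro i hi
    have h1 := norm_le_pi_norm (ThK kk p s o l z - ThK kk p s o l z') i
    rw [Pi.sub_apply] at h1
    unfold ThK at h1
    rw [if_neg hi, if_neg hi] at h1
    have h2 := norm_le_pi_norm (forceK kk z - forceK kk z') i
    rw [Pi.sub_apply] at h2
    have h3 := L₁ z hz z' hz'
    have e : p • (z i - z' i) = (forceK kk z i + p • (z i - s i) - (forceK kk z' i + p • (z' i - s i))) -
        (forceK kk z i - forceK kk z' i) := by
      simp only [smul_sub]
      abel
    have h4 : ‖p • (z i - z' i)‖ = p * ‖z i - z' i‖ := by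
      rw [norm_smul, Real.norm_of_nonneg hp0.le]
    rw [← h4, e]
    refine (norm_sub_le _ _).trans ?_
    have h5 : ‖forceK kk z i + p • (z i - s i) - (forceK kk z' i + p • (z' i - s i))‖ ≤ T := h1
    linarith only [h5, h2, h3]
  have hi' : ∀ i, i ≠ l → ‖z i - z' i‖ ≤ (T + K * ‖z - z'‖) / p := by
    intro i hil
    rw [le_div_iff₀ hp0, mul_comm]
    exact hi i hil
  have hBnn : 0 ≤ (T + K * ‖z - z'‖) / p := by positivity
  have hl : ‖z l - z' l‖ ≤ K * max ((T + K * ‖z - z'‖) / p) T := by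
    refine (key z hz z' hz').trans ?_
    gcongr
    rw [Prod.mk_sub_mk, Prod.norm_def]
    refine max_le_max ?_ hTl
    simp only
    rw [pi_norm_le_iff_of_nonneg hBnn]
    intro i
    rw [Pi.sub_apply]
    by_cases hil : i = l
    · subst hil
      rw [Function.update_self, Function.update_self, sub_self, norm_zero]
      exact hBnn
    · rw [Function.update_of_ne hil, Function.update_of_ne hil]
      exact hi' i hil
  have hall : ‖z - z'‖ ≤ K * max ((T + K * ‖z - z'‖) / p) T := by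
    have hnn : 0 ≤ K * max ((T + K * ‖z - z'‖) / p) T :=
      mul_nonneg hK0.le (le_max_of_le_right hT0)
    rw [pi_norm_le_iff_of_nonneg hnn]
    intro i
    rw [Pi.sub_apply]
    by_cases hil : i = l
    · subst hil
      exact hl
    · refine (hi' i hil).trans ?_
      have h1 : (T + K * ‖z - z'‖) / p ≤ max ((T + K * ‖z - z'‖) / p) T := le_max_left _ _
      have h2 : 0 ≤ max ((T + K * ‖z - z'‖) / p) T := le_max_of_le_right hT0
      nlinarith only [h1, h2, hK1]
  rcases le_total ((T + K * ‖z - z'‖) / p) T with hle | hle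
  · rwa [max_eq_right hle] at hall
  · rw [max_eq_left hle] at hall
    have h1 : p * ‖z - z'‖ ≤ K * (T + K * ‖z - z'‖) := by
      calc p * ‖z - z'‖ ≤ p * (K * ((T + K * ‖z - z'‖) / p)) := by gcongr
        _ = K * (T + K * ‖z - z'‖) := by field_simp
    have h2 : 2 * K ^ 2 * ‖z - z'‖ ≤ p * ‖z - z'‖ := by gcongr
    have h3 : K * (K * ‖z - z'‖) ≤ K * T := by nlinarith only [h1, h2]
    have h4 : K * ‖z - z'‖ ≤ T := le_of_mul_le_mul_left h3 hK0
    nlinarith only [h4, hK1, hZ0, hT0]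

/-- smoothness of the contact family -/
lemma smooth_family [FiniteDimensional ℝ E] {s : Fin N → E} {o l : Fin N}
    {ρ K p : ℝ} (hK : ∀ z ∈ ball s ρ, ∀ z' ∈ ball s ρ,
      ‖z - z'‖ ≤ K * ‖ThK kk p s o l z - ThK kk p s o l z'‖) (hol : o ≠ l)
    {δ : ℝ} {x : E → Fin N → E} {h : Fin N → E} {a₀ : E}
    (hcont : ContinuousOn x (closedBall a₀ δ))
    (hinj : ∀ a ∈ closedBall a₀ δ, Function.Injective (x a))
    (hball : ∀ a ∈ closedBall a₀ δ, x a ∈ ball s ρ)
    (hcrit : ∀ a ∈ closedBall a₀ δ, ∀ i, i ≠ l → forceK kk (x a) i = h i - p • (x a i - s i))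
    (hxo : ∀ a ∈ closedBall a₀ δ, x a o = a) :
    ∀ a ∈ ball a₀ δ, ContDiffAt ℝ ∞ x a := by
  intro a ha
  have hac : a ∈ closedBall a₀ δ := ball_subset_closedBall ha
  have hTh := cdo_Th (kk := kk) p s o l (hinj a hac)
  have hder : HasFDerivAt (ThK kk p s o l) (fderiv ℝ (ThK kk p s o l) (x a)) (x a) :=
    (hTh.differentiableAt (by simp)).hasFDerivAt
  have hinj' : ∀ v, fderiv ℝ (ThK kk p s o l) (x a) v = 0 → v = 0 := by
    intro v hv
    have h1 := fderiv_inj isOpen_ball hK (hball a hac) hder v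
    rw [hv, norm_zero, mul_zero] at h1
    exact norm_le_zero_iff.1 h1
  obtain ⟨g, hg, hgl, -, -⟩ := exists_local_inv (n := ∞) (by simp) hTh hinj'
  -- the affine right hand side
  set A : E → Fin N → E := fun a i => if i = l then h o - p • (a - s o) else h i with hA
  have hThx : ∀ a ∈ closedBall a₀ δ, ThK kk p s o l (x a) = A a := by
    intro a ha
    funext i
    simp only [ThK, hA]
    by_cases hi : i = l
    · rw [if_pos hi, if_pos hi, hcrit a ha o hol, hxo a ha]
    · rw [if_neg hi, if_neg hi, hcrit a ha i hi]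
      abel
  have hAs : ContDiff ℝ ∞ A := by
    rw [contDiff_pi]
    intro i
    simp only [hA]
    by_cases hi : i = l
    · simp only [if_pos hi]
      exact contDiff_const.sub (contDiff_const.smul (contDiff_id.sub contDiff_const))
    · simp only [if_neg hi]
      exact contDiff_const
  have hxat : ContinuousAt x a := hcont.continuousAt (closedBall_mem_nhds_of_mem ha)
  have hev : x =ᶠ[𝓝 a] fun a' => g (A a') := by
    have h1 := hxat.eventually hgl
    have h2 : ∀ᶠ a' in 𝓝 a, a' ∈ closedBall a₀ δ := closedBall_mem_nhds_of_mem ha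
    filter_upwards [h1, h2] with a' h1 h2
    rw [← hThx a' h2, h1]
  refine ContDiffAt.congr_of_eventuallyEq ?_ hev
  have h3 : ContDiffAt ℝ ∞ g (A a) := by
    rw [← hThx a hac]
    exact hg
  exact ContDiffAt.comp a h3 hAs.contDiffAt


end Force

end Vale.Agent.P121.H414.K
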