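import Vale.Agent.P121.H414.K.Defs
import Vale.Agent.P121.H414.Main

set_option linter.all false

open Set Filter Topology Metric MeasureTheory
open scoped RealInnerProductSpace NNReal ContDiff

namespace Vale.Agent.P121.H414.K

/-- admissible kernels -/
class Ker (kk : ℝ → ℝ) : Prop where
  smooth : ContDiffOn ℝ ∞ kk (Ioi 0)
  pos : ∀ r, 0 < r → 0 < kk r
  neg : ∀ r, 0 < r → deriv kk r < 0
  conv : ∀ r, 0 < r → 0 < deriv (deriv kk) r
  blow : Tendsto kk (𝓝[>] 0) atTop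

section OneDim

variable (kk : ℝ → ℝ)

/-- the force law -/
noncomputable def gk (r : ℝ) : ℝ := - deriv kk r

variable {kk} [hk : Ker kk]

include hk

lemma kk_smooth {r : ℝ} (hr : 0 < r) : ContDiffAt ℝ ∞ kk r :=
  (hk.smooth).contDiffAt (Ioi_mem_nhds hr)

lemma kk_hasDeriv {r : ℝ} (hr : 0 < r) : HasDerivAt kk (-gk kk r) r := by
  unfold gk
  rw [neg_neg]
  exact ((kk_smooth hr).differentiableAt (by simp)).hasDerivAt

lemma gk_pos {r : ℝ} (hr : 0 < r) : 0 < gk kk r := by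
  unfold gk
  have := hk.neg r hr
  linarith

lemma gk_smooth {r : ℝ} (hr : 0 < r) : ContDiffAt ℝ ∞ (gk kk) r := by
  have h1 : ContDiffOn ℝ ∞ (deriv kk) (Ioi 0) := by
    have := (contDiffOn_infty_iff_deriv_of_isOpen (isOpen_Ioi (a := (0 : ℝ)))).1 hk.smooth
    exact this.2
  have h2 : ContDiffAt ℝ ∞ (deriv kk) r := h1.contDiffAt (Ioi_mem_nhds hr)
  exact h2.neg

lemma gk_hasDeriv {r : ℝ} (hr : 0 < r) : HasDerivAt (gk kk) (-deriv (deriv kk) r) r := by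
  have h1 : ContDiffOn ℝ ∞ (deriv kk) (Ioi 0) := by
    have := (contDiffOn_infty_iff_deriv_of_isOpen (isOpen_Ioi (a := (0 : ℝ)))).1 hk.smooth
    exact this.2
  have h2 : ContDiffAt ℝ ∞ (deriv kk) r := h1.contDiffAt (Ioi_mem_nhds hr)
  have h3 := (h2.differentiableAt (by simp)).hasDerivAt
  exact h3.neg

lemma gk_cont : ContinuousOn (gk kk) (Ioi 0) := fun r hr =>
  (gk_smooth (hk := hk) hr).continuousAt.continuousWithinAt

lemma gk_anti : StrictAntiOn (gk kk) (Ioi 0) := by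
  refine strictAntiOn_of_deriv_neg (convex_Ioi 0) gk_cont ?_
  intro r hr
  rw [interior_Ioi] at hr
  rw [(gk_hasDeriv (hk := hk) hr).deriv]
  have := hk.conv r hr
  linarith

lemma kk_cont : ContinuousOn kk (Ioi 0) := fun r hr =>
  (kk_smooth (hk := hk) hr).continuousAt.continuousWithinAt

lemma kk_anti : StrictAntiOn kk (Ioi 0) := by
  refine strictAntiOn_of_deriv_neg (convex_Ioi 0) kk_cont ?_
  intro r hr
  rw [interior_Ioi] at hr
  exact hk.neg r hr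

/-- mean value theorem for the kernel -/
lemma kk_mvt {a b : ℝ} (ha : 0 < a) (hab : a < b) :
    ∃ c ∈ Ioo a b, kk b - kk a = - gk kk c * (b - a) := by
  obtain ⟨c, hc, h⟩ := exists_hasDerivAt_eq_slope kk (fun x => -gk kk x) hab
    (kk_cont.mono fun x hx => lt_of_lt_of_le ha hx.1)
    (fun x hx => kk_hasDeriv (ha.trans hx.1))
  refine ⟨c, hc, ?_⟩
  rw [h]
  have : b - a ≠ 0 := by linarith
  field_simp

lemma gk_surj {y : ℝ} (hy : 0 < y) : ∃ r, 0 < r ∧ gk kk r = y := by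
  -- a point with large force
  obtain ⟨a, ha, hga⟩ : ∃ a, 0 < a ∧ y ≤ gk kk a := by
    have h1 := hk.blow.eventually (eventually_ge_atTop (kk 1 + y))
    have h2 : ∀ᶠ t : ℝ in 𝓝[>] 0, t ∈ Ioo (0 : ℝ) 1 := Ioo_mem_nhdsGT one_pos
    obtain ⟨t, ht1, ht2⟩ := (h1.and h2).exists
    obtain ⟨c, hc, h3⟩ := kk_mvt (hk := hk) ht2.1 ht2.2
    refine ⟨c, ht2.1.trans hc.1, ?_⟩
    have h4 := gk_pos (hk := hk) (ht2.1.trans hc.1)
    have h5 := ht2.1
    have h6 := ht2.2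
    nlinarith
  obtain ⟨b, hb, hgb⟩ : ∃ b, 0 < b ∧ gk kk b ≤ y := by
    have h1 := hk.pos 1 one_pos
    have hM : 1 < 1 + kk 1 / y := by
      have : 0 < kk 1 / y := by positivity
      linarith
    obtain ⟨c, hc, h3⟩ := kk_mvt (hk := hk) one_pos hM
    have h4 := hk.pos (1 + kk 1 / y) (by linarith)
    have hc0 : 0 < c := one_pos.trans hc.1
    refine ⟨c, hc0, ?_⟩
    have h5 : gk kk c * (kk 1 / y) ≤ kk 1 := by
      have : gk kk c * (1 + kk 1 / y - 1) = kk 1 - kk (1 + kk 1 / y) := by linarith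
      have e : (1 + kk 1 / y - 1) = kk 1 / y := by ring
      rw [e] at this
      linarith
    have h6 : gk kk c * (kk 1 / y) = gk kk c * kk 1 / y := by ring
    rw [h6, div_le_iff₀ hy] at h5
    nlinarith
  have hpc : IsPreconnected (Ioi (0 : ℝ)) := isPreconnected_Ioi
  have := hpc.intermediate_value (a := b) (b := a) hb ha (gk_cont (kk := kk))
  obtain ⟨r, hr, hry⟩ := this ⟨hgb, hga⟩
  exact ⟨r, hr, hry⟩

/-- the tangent inequality in one dimension -/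
lemma kk_tangent {s t : ℝ} (hs : 0 < s) (ht : 0 < t) : kk s - gk kk s * (t - s) ≤ kk t := by
  rcases lt_trichotomy s t with h | h | h
  · obtain ⟨c, hc, h1⟩ := kk_mvt (hk := hk) hs h
    have h2 := gk_anti (hk := hk) hs (hs.trans hc.1) hc.1
    nlinarith
  · subst h
    simp
  · obtain ⟨c, hc, h1⟩ := kk_mvt (hk := hk) ht h
    have h2 := gk_anti (hk := hk) (ht.trans hc.1) hs hc.2
    nlinarith

end OneDim

section Inv

variable (kk : ℝ → ℝ)

/-- inverse force law -/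
noncomputable def gin (y : ℝ) : ℝ := Function.invFunOn (gk kk) (Ioi 0) y

variable {kk} [hk : Ker kk]

include hk

lemma gin_pos {y : ℝ} (hy : 0 < y) : 0 < gin kk y := by
  obtain ⟨r, hr, hry⟩ := gk_surj (hk := hk) hy
  exact Function.invFunOn_mem (⟨r, hr, hry⟩ : ∃ a ∈ Ioi (0 : ℝ), gk kk a = y)

lemma gk_gin {y : ℝ} (hy : 0 < y) : gk kk (gin kk y) = y := by
  obtain ⟨r, hr, hry⟩ := gk_surj (hk := hk) hy
  exact Function.invFunOn_eq (⟨r, hr, hry⟩ : ∃ a ∈ Ioi (0 : ℝ), gk kk a = y)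

lemma gin_gk {r : ℝ} (hr : 0 < r) : gin kk (gk kk r) = r :=
  (gk_anti (hk := hk)).injOn (gin_pos (gk_pos hr)) hr (gk_gin (gk_pos hr))

lemma gin_smooth {y : ℝ} (hy : 0 < y) : ContDiffAt ℝ ∞ (gin kk) y := by
  set r := gin kk y with hr
  have hr0 : 0 < r := gin_pos hy
  have hgr : gk kk r = y := gk_gin hy
  have hd := gk_hasDeriv (hk := hk) hr0
  have hinj : ∀ v, fderiv ℝ (gk kk) r v = 0 → v = 0 := by
    intro v hv
    have h1 : fderiv ℝ (gk kk) r v = v * (-deriv (deriv kk) r) := by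
      rw [hd.hasFDerivAt.fderiv]
      simp
    rw [h1] at hv
    have h2 := hk.conv r hr0
    rcases mul_eq_zero.1 hv with h | h
    · exact h
    · exfalso; linarith
  obtain ⟨g, hg, hgl, hgr', hg0⟩ := exists_local_inv (n := ∞) (by simp) (gk_smooth (hk := hk) hr0) hinj
  rw [hgr] at hg hgr' hg0
  refine hg.congr_of_eventuallyEq ?_
  have h3 : ∀ᶠ y' in 𝓝 y, g y' ∈ Ioi (0 : ℝ) := by
    have h4 : Tendsto g (𝓝 y) (𝓝 r) := by
      have := hg.continuousAt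
      unfold ContinuousAt at this
      rwa [hg0] at this
    exact h4.eventually (Ioi_mem_nhds hr0)
  filter_upwards [hgr', h3] with y' h5 h6
  have h7 := gin_gk (hk := hk) h6
  rw [h5] at h7
  exact h7

end Inv

section Vec

variable {E : Type*} [NormedAddCommGroup E] [InnerProductSpace ℝ E]

/-- the field of the kernel -/
noncomputable def GK (kk : ℝ → ℝ) (w : E) : E := (gk kk ‖w‖ / ‖w‖) • w

/-- inverse of the field -/
noncomputable def GinvK (kk : ℝ → ℝ) (y : E) : E := (gin kk ‖y‖ / ‖y‖) • y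

open Classical in
/-- real pair interaction, `0` on the diagonal -/
noncomputable def kap (kk : ℝ → ℝ) (w : E) : ℝ := if w = 0 then 0 else kk ‖w‖

variable {kk : ℝ → ℝ}

lemma kap_zero : kap kk (0 : E) = 0 := by simp [kap]

lemma kap_ne {w : E} (hw : w ≠ 0) : kap kk w = kk ‖w‖ := by simp [kap, hw]

lemma kap_neg (w : E) : kap kk (-w) = kap kk w := by
  by_cases hw : w = 0
  · rw [hw, neg_zero]
  · rw [kap_ne hw, kap_ne (neg_ne_zero.2 hw), norm_neg]

lemma kap_sub_comm (x y : E) : kap kk (x - y) = kap kk (y - x) := by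
  rw [← kap_neg, neg_sub]

lemma kap_norm {F : Type*} [NormedAddCommGroup F] [InnerProductSpace ℝ F] {v : F} {w : E}
    (h : ‖v‖ = ‖w‖) : kap kk v = kap kk w := by
  by_cases hw : w = 0
  · have hv : v = 0 := by rw [← norm_eq_zero, h, hw, norm_zero]
    rw [hw, hv, kap_zero, kap_zero]
  · have hv : v ≠ 0 := by
      intro hv
      rw [hv, norm_zero] at h
      exact hw (norm_eq_zero.1 h.symm)
    rw [kap_ne hw, kap_ne hv, h]

lemma kap_map (R : E ≃ₗᵢ[ℝ] E) (w : E) : kap kk (R w) = kap kk w :=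
  kap_norm (R.norm_map w)

lemma GK_zero : GK kk (0 : E) = 0 := by simp [GK]

lemma GinvK_zero : GinvK kk (0 : E) = 0 := by simp [GinvK]

lemma GK_neg (w : E) : GK kk (-w) = - GK kk w := by
  simp only [GK, norm_neg, smul_neg]

lemma GK_sub_comm (x y : E) : GK kk (x - y) = - GK kk (y - x) := by
  rw [← GK_neg, neg_sub]

lemma GK_isometry (R : E ≃ₗᵢ[ℝ] E) (v : E) : R (GK kk v) = GK kk (R v) := by
  rw [GK, GK, LinearIsometryEquiv.norm_map, map_smul]

variable [hk : Ker kk]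

include hk

lemma kap_nonneg (w : E) : 0 ≤ kap kk w := by
  by_cases hw : w = 0
  · rw [hw, kap_zero]
  · rw [kap_ne hw]
    exact (hk.pos _ (norm_pos_iff.2 hw)).le

lemma GK_GinvK (y : E) : GK kk (GinvK kk y) = y := by
  by_cases hy : y = 0
  · subst hy; rw [GinvK_zero, GK_zero]
  · have h0 : 0 < ‖y‖ := norm_pos_iff.2 hy
    have hr0 := gin_pos (hk := hk) h0
    have hn : ‖GinvK kk y‖ = gin kk ‖y‖ := by
      rw [GinvK, norm_smul, norm_div, norm_norm, Real.norm_of_nonneg hr0.le]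
      field_simp
    rw [GK, hn, gk_gin h0, GinvK, smul_smul]
    have : ‖y‖ / gin kk ‖y‖ * (gin kk ‖y‖ / ‖y‖) = 1 := by field_simp
    rw [this, one_smul]

lemma GinvK_GK (x : E) : GinvK kk (GK kk x) = x := by
  by_cases hx : x = 0
  · subst hx; rw [GK_zero, GinvK_zero]
  · have h0 : 0 < ‖x‖ := norm_pos_iff.2 hx
    have hr0 := gk_pos (hk := hk) h0
    have hn : ‖GK kk x‖ = gk kk ‖x‖ := by
      rw [GK, norm_smul, norm_div, norm_norm, Real.norm_of_nonneg hr0.le]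
      field_simp
    rw [GinvK, hn, gin_gk h0, GK, smul_smul]
    have : ‖x‖ / gk kk ‖x‖ * (gk kk ‖x‖ / ‖x‖) = 1 := by field_simp
    rw [this, one_smul]

lemma smooth_GK {x : E} (hx : x ≠ 0) : ContDiffAt ℝ ∞ (GK kk : E → E) x := by
  unfold GK
  have h0 : 0 < ‖x‖ := norm_pos_iff.2 hx
  have h1 : ContDiffAt ℝ ∞ (fun x : E => gk kk ‖x‖) x :=
    ContDiffAt.comp (g := gk kk) x (gk_smooth (hk := hk) h0) (contDiffAt_norm ℝ hx)
  exact (h1.div (contDiffAt_norm ℝ hx) h0.ne').smul contDiffAt_id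

lemma smooth_GinvK {x : E} (hx : x ≠ 0) : ContDiffAt ℝ ∞ (GinvK kk : E → E) x := by
  unfold GinvK
  have h0 : 0 < ‖x‖ := norm_pos_iff.2 hx
  have h1 : ContDiffAt ℝ ∞ (fun x : E => gin kk ‖x‖) x :=
    ContDiffAt.comp (g := gin kk) x (gin_smooth (hk := hk) h0) (contDiffAt_norm ℝ hx)
  exact (h1.div (contDiffAt_norm ℝ hx) h0.ne').smul contDiffAt_id

/-- tangent paraboloid inequality -/
theorem kap_tangent (w v : E) (hw : w ≠ 0) (hv : v ≠ 0) :
    kap kk v - ⟪GK kk v, w - v⟫ - ‖w - v‖ ^ 2 * (gk kk ‖v‖ / ‖v‖ / 2) ≤ kap kk w := by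
  have hw' : 0 < ‖w‖ := norm_pos_iff.mpr hw
  have hv' : 0 < ‖v‖ := norm_pos_iff.mpr hv
  rw [kap_ne hw, kap_ne hv]
  have h := kk_tangent (hk := hk) hv' hw'
  have hg := gk_pos (hk := hk) hv'
  have h1 : ‖w‖ ^ 2 = ‖v‖ ^ 2 + 2 * ⟪v, w - v⟫ + ‖w - v‖ ^ 2 := by
    have := norm_add_sq_real v (w - v)
    rw [add_sub_cancel] at this
    exact this
  have h2 : ⟪GK kk v, w - v⟫ = (gk kk ‖v‖ / ‖v‖) * ⟪v, w - v⟫ := by
    rw [GK, real_inner_smul_left]
  rw [h2]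
  have h3 : gk kk ‖v‖ * (‖w‖ - ‖v‖) ≤ (gk kk ‖v‖ / ‖v‖) * ((‖w‖ ^ 2 - ‖v‖ ^ 2) / 2) := by
    have e : (gk kk ‖v‖ / ‖v‖) * ((‖w‖ ^ 2 - ‖v‖ ^ 2) / 2) - gk kk ‖v‖ * (‖w‖ - ‖v‖) =
        (gk kk ‖v‖ / ‖v‖) * ((‖w‖ - ‖v‖) ^ 2 / 2) := by
      field_simp
      ring
    have : 0 ≤ (gk kk ‖v‖ / ‖v‖) * ((‖w‖ - ‖v‖) ^ 2 / 2) := by positivity
    linarith
  have h4 : (‖w‖ ^ 2 - ‖v‖ ^ 2) / 2 = ⟪v, w - v⟫ + ‖w - v‖ ^ 2 / 2 := by
    rw [h1]; ring
  rw [h4] at h3
  nlinarith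

/-- the curvature bound is monotone -/
lemma cc_mono {r s : ℝ} (hr : 0 < r) (hrs : r ≤ s) : gk kk s / s ≤ gk kk r / r := by
  have hs : 0 < s := lt_of_lt_of_le hr hrs
  have h1 : gk kk s ≤ gk kk r := (gk_anti (hk := hk)).antitoneOn hr hs hrs
  have h2 := gk_pos (hk := hk) hr
  have h3 := gk_pos (hk := hk) hs
  gcongr

end Vec

end Vale.Agent.P121.H414.K
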