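import Vale.Agent.P121.H414.K.C

set_option linter.all false

open MeasureTheory Set Filter Topology Metric
open scoped RealInnerProductSpace ENNReal NNReal

namespace Vale.Agent.P121.H414.K


section Cont

variable {E : Type*} [NormedAddCommGroup E] [InnerProductSpace ℝ E] {N : ℕ} {kk : ℝ → ℝ} [Ker kk]

lemma continuous_coulombN : Continuous (costK kk : (Fin N → E) → ℝ≥0∞) := by
  unfold costK
  refine continuous_finsetSum _ fun i _ => continuous_finsetSum _ fun j _ => ?_
  exact continuous_pairCost (continuous_apply i) (continuous_apply j)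

/-- stability of strict inequality under small perturbations -/
lemma strict_stable {q : Fin N → E} {w : Fin N → ℝ} {M : ℝ} {C : ℝ≥0∞}
    (h : ∑ k, ENNReal.ofReal (w k + M) < costK kk q + C) :
    ∃ ε > 0, ∀ x : Fin N → E, ∀ v : Fin N → ℝ, (∀ k, dist (x k) (q k) < ε) →
      (∀ k, |v k - w k| < ε) → ∑ k, ENNReal.ofReal (v k + M) < costK kk x + C := by
  have hf : Continuous (fun u : (Fin N → E) × (Fin N → ℝ) =>
      ∑ k, ENNReal.ofReal (u.2 k + M)) := by
    refine continuous_finsetSum _ fun k _ => ?_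
    exact ENNReal.continuous_ofReal.comp
        (((continuous_apply k).comp continuous_snd).add continuous_const)
  have hg : Continuous (fun u : (Fin N → E) × (Fin N → ℝ) => costK kk u.1 + C) :=
    (continuous_coulombN.comp continuous_fst).add continuous_const
  obtain ⟨ε, hε, hball⟩ := exists_ball_of_lt hf hg (u := (q, w)) h
  refine ⟨ε, hε, fun x v hx hv => ?_⟩
  refine hball (x, v) ?_
  rw [mem_ball, Prod.dist_eq]
  refine max_lt ?_ ?_
  · exact (dist_pi_lt_iff hε).2 hx
  · exact (dist_pi_lt_iff hε).2 fun k => by rw [Real.dist_eq]; exact hv k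

end Cont

section Act

variable {E : Type*} [NormedAddCommGroup E] [InnerProductSpace ℝ E] {N : ℕ} {kk : ℝ → ℝ} [Ker kk]

variable {R : E ≃ₗᵢ[ℝ] E}

lemma kap_act (j : Fin 2) (w : E) : kap kk (act R j w) = kap kk w := kap_norm (norm_act j w)

lemma cRN_act (j : Fin 2) (y : Fin N → E) : cRK kk (fun k => act R j (y k)) = cRK kk y := by
  unfold cRK
  simp only [← act_sub, kap_act]

lemma cRN_perm (σ : Equiv.Perm (Fin N)) (y : Fin N → E) : cRK kk (fun k => y (σ k)) = cRK kk y := by
  unfold cRK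
  rw [← Equiv.sum_comp σ (fun i => ∑ j, kap kk (y i - y j))]
  congr 1
  refine Finset.sum_congr rfl fun i _ => ?_
  exact Equiv.sum_comp σ (fun j => kap kk (y (σ i) - y j))

end Act

section Sites

variable {E : Type*} [NormedAddCommGroup E] [InnerProductSpace ℝ E] {N : ℕ} {kk : ℝ → ℝ} [Ker kk]

/-- The discrete data: `s` are the sites of the first branch, `R ∘ s` those of the second one. -/
structure SitesK (kk : ℝ → ℝ) (R : E ≃ₗᵢ[ℝ] E) (s : Fin N → E) (o b l : Fin N) (W : E → ℝ) : Prop where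
  RR : ∀ x, R (R x) = x
  inj : Function.Injective s
  ol : o ≠ l
  ob : o ≠ b
  bl : b ≠ l
  so : s o = 0
  sep : ∀ i i', R (s i) = s i' → i = i' ∧ i ≠ b ∧ i ≠ l
  fix : ∀ i, i ≠ b → i ≠ l → R (s i) = s i
  force_fix : R (forceK kk s o) = forceK kk s o
  W_R : ∀ i, W (R (s i)) = W (s i)
  W_sum : ∑ i, W (s i) = cRK kk s
  lp : ∀ τ : Fin N → Fin 2 × Fin N, Function.Injective (fun k => site2 R s (τ k)) →
    (∃ j : Fin 2, ∃ σ : Equiv.Perm (Fin N), ∀ k, site2 R s (τ k) = site2 R s (j, σ k)) ∨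
    ∑ k, W (site2 R s (τ k)) < cRK kk (fun k => site2 R s (τ k))

variable {R : E ≃ₗᵢ[ℝ] E} {s : Fin N → E} {o b l : Fin N} {W : E → ℝ}

/-- the sites of particles `b` and `l` are not shared -/
lemma SitesK.eq_of_site2 (hS : SitesK kk R s o b l W) {j j' : Fin 2} {i i' : Fin N}
    (hi : i = b ∨ i = l) (h : site2 R s (j', i') = site2 R s (j, i)) : j' = j ∧ i' = i := by
  have key : ∀ i', R (s i) ≠ s i' := by
    intro i' hh
    have := hS.sep i i' hh
    rcases hi with hi | hi
    · exact this.2.1 hi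
    · exact this.2.2 hi
  have key' : ∀ i', R (s i') ≠ s i := by
    intro i' hh
    have h1 := hS.sep i' i hh
    rw [h1.1] at hh
    exact key i hh
  simp only [site2, act] at h
  fin_cases j <;> fin_cases j' <;> simp at h ⊢
  · exact hS.inj h
  · exact absurd h (key' i')
  · exact absurd h.symm (key i')
  · exact hS.inj h

lemma SitesK.site2_o (hS : SitesK kk R s o b l W) {j : Fin 2} {i : Fin N}
    (h : site2 R s (j, i) = 0) : i = o := by
  simp only [site2] at h
  have h1 : s i = 0 := by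
    apply act_inj (R := R) j
    rw [h, act_of_zero]
  exact hS.inj (h1.trans hS.so.symm)

end Sites

section Pot

variable {E : Type*} [NormedAddCommGroup E] [InnerProductSpace ℝ E] {N : ℕ} {kk : ℝ → ℝ} [Ker kk]
variable {R : E ≃ₗᵢ[ℝ] E} {s : Fin N → E} {o b l : Fin N} {W : E → ℝ}

/-- linear coefficients of the quadratic potentials -/
noncomputable def hvecK (kk : ℝ → ℝ) (s : Fin N → E) (o : Fin N) (i : Fin N) : E :=
  if i = o then forceK kk s o else 0

/-- the quadratic potentials -/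
noncomputable def qdK (kk : ℝ → ℝ) (s : Fin N → E) (o : Fin N) (W : E → ℝ) (p : ℝ) (i : Fin N) (y : E) : ℝ :=
  quad (W (s i)) (hvecK kk s o i) (s i) p y

lemma qd_R (hS : SitesK kk R s o b l W) (p : ℝ) {i : Fin N} (hib : i ≠ b) (hil : i ≠ l) (y : E) :
    qdK kk s o W p i (R y) = qdK kk s o W p i y := by
  have hsi := hS.fix i hib hil
  have hh : R (hvecK kk s o i) = hvecK kk s o i := by
    unfold hvecK
    split_ifs
    · exact hS.force_fix
    · exact map_zero R
  have e1 : R y - s i = R (y - s i) := by rw [map_sub, hsi]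
  have e2 : ⟪hvecK kk s o i, R (y - s i)⟫ = ⟪hvecK kk s o i, y - s i⟫ := by
    conv_lhs => rw [← hh]
    exact R.inner_map_map _ _
  unfold qdK quad
  rw [e1, e2, R.norm_map]

/-- potentials of the first branch, `g` is the potential of particle `l` -/
noncomputable def fpotK (kk : ℝ → ℝ) (s : Fin N → E) (o l : Fin N) (W : E → ℝ) (p : ℝ) (g : E → ℝ) (i : Fin N) :
    E → ℝ := if i = l then g else qdK kk s o W p i

lemma VV_R_eq (hS : SitesK kk R s o b l W) {η p : ℝ} {g : E → ℝ} (hsep : SepAt R s η) {i : Fin N}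
    {y : E} (hy : y ∈ ball (s i) η) :
    VV R s (fpotK kk s o l W p g) η (R y) = fpotK kk s o l W p g i y := by
  have hdisj := hsep.disj hS.inj
  have hRy : dist (R y) (site2 R s (1, i)) < η := by
    show dist (R y) (R (s i)) < η
    rw [R.dist_map]
    exact hy
  by_cases hmem : R y ∈ ⋃ i, ball (s i) η
  · obtain ⟨i', hi'⟩ := mem_iUnion.1 hmem
    have h1 : site2 R s (1, i) = site2 R s (0, i') := hsep _ _ (R y) hRy hi'
    have h2 : R (s i) = s i' := h1
    obtain ⟨h3, h4, h5⟩ := hS.sep i i' h2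
    subst h3
    rw [VV_eq hdisj hi']
    unfold fpotK
    rw [if_neg h5]
    exact qd_R hS p h4 h5 y
  · unfold VV
    rw [if_neg hmem, hS.RR]
    exact V0_eq hdisj hy

lemma VV_act_eq (hS : SitesK kk R s o b l W) {η p : ℝ} {g : E → ℝ} (hsep : SepAt R s η) {i : Fin N}
    {y : E} (hy : y ∈ ball (s i) η) (j : Fin 2) :
    VV R s (fpotK kk s o l W p g) η (act R j y) = fpotK kk s o l W p g i y := by
  fin_cases j
  · exact VV_eq (hsep.disj hS.inj) hy
  · exact VV_R_eq hS hsep hy

end Pot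

section Scales

variable {E : Type*} [NormedAddCommGroup E] [InnerProductSpace ℝ E] {N : ℕ} {kk : ℝ → ℝ} [Ker kk]
variable {R : E ≃ₗᵢ[ℝ] E} {s : Fin N → E} {o b l : Fin N} {W : E → ℝ}

lemma continuousAt_cRN {s : Fin N → E} (hs : Function.Injective s) :
    ContinuousAt (cRK kk : (Fin N → E) → ℝ) s := by
  unfold cRK
  refine continuousAt_const.mul ?_
  refine tendsto_finsetSum _ fun i _ => tendsto_finsetSum _ fun j _ => ?_
  by_cases hij : i = j
  · subst hij
    simp only [sub_self, norm_zero, inv_zero]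
    exact tendsto_const_nhds
  · have hne : s i - s j ≠ 0 := sub_ne_zero.2 (fun h => hij (hs h))
    have h0 : ContinuousAt (fun x : Fin N → E => x i - x j) s :=
      ((continuous_apply i).sub (continuous_apply j)).continuousAt
    have h1 : ContinuousAt (fun x : Fin N → E => kk ‖x i - x j‖) s :=
      ContinuousAt.comp (g := kk) (kk_smooth (norm_pos_iff.2 hne)).continuousAt h0.norm
    refine (h1.congr ?_)
    filter_upwards [h0.eventually_ne hne] with x hx
    exact (kap_ne hx).symm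

lemma cRN_close {s : Fin N → E} (hs : Function.Injective s) {ε : ℝ} (hε : 0 < ε) :
    ∃ η > 0, ∀ x : Fin N → E, (∀ i, ‖x i - s i‖ < η) → |cRK kk x - cRK kk s| < ε := by
  obtain ⟨η, hη, h⟩ := Metric.continuousAt_iff.1 (continuousAt_cRN (kk := kk) hs) ε hε
  refine ⟨η, hη, fun x hx => ?_⟩
  have := h (x := x) ((dist_pi_lt_iff hη).2 fun i => by rw [dist_eq_norm]; exact hx i)
  rwa [Real.dist_eq] at this

lemma W_site2 (hS : SitesK kk R s o b l W) (t : Fin 2 × Fin N) : W (site2 R s t) = W (s t.2) := by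
  obtain ⟨j, i⟩ := t
  fin_cases j
  · rfl
  · exact hS.W_R i

/-- strict inequality for the tuples of sites that are not a branch -/
lemma bad_strict (hS : SitesK kk R s o b l W) (τ : Fin N → Fin 2 × Fin N)
    (hbad : ¬ ∃ j : Fin 2, ∃ σ : Equiv.Perm (Fin N), ∀ k, site2 R s (τ k) = site2 R s (j, σ k)) :
    ∑ k, ENNReal.ofReal (W (site2 R s (τ k)) + (1 + ∑ i, |W (s i)|)) <
      costK kk (fun k => site2 R s (τ k)) + ENNReal.ofReal (N * (1 + ∑ i, |W (s i)|)) := by
  set M : ℝ := 1 + ∑ i, |W (s i)| with hM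
  have hM1 : 1 ≤ M := by
    have : 0 ≤ ∑ i, |W (s i)| := Finset.sum_nonneg fun i _ => abs_nonneg _
    linarith only [this]
  by_cases hinj : Function.Injective (fun k => site2 R s (τ k))
  · have hlt := (hS.lp τ hinj).resolve_left hbad
    have hnn : ∀ k, 0 ≤ W (site2 R s (τ k)) + M := by
      intro k
      rw [W_site2 hS]
      have h1 := abs_W_le s W (τ k).2
      have h2 := neg_abs_le (W (s (τ k).2))
      linarith only [h1, h2]
    rw [coulombN_eq_ofReal hinj, ← ENNReal.ofReal_add (cRN_nonneg _) (by (clear * -; positivity)),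
      ← ENNReal.ofReal_sum_of_nonneg (fun k _ => hnn k)]
    rw [ENNReal.ofReal_lt_ofReal_iff_of_nonneg (Finset.sum_nonneg fun k _ => hnn k)]
    rw [Finset.sum_add_distrib, Finset.sum_const, Finset.card_univ, Fintype.card_fin, nsmul_eq_mul]
    linarith only [hlt]
  · rw [coulombN_eq_top hinj, top_add]
    refine ENNReal.sum_lt_top.2 fun k _ => ENNReal.ofReal_lt_top

/-- uniform version of `strict_stable` for all bad tuples -/
lemma exists_eps (hS : SitesK kk R s o b l W) :
    ∃ ε > 0, ε ≤ 1 ∧ ∀ τ : Fin N → Fin 2 × Fin N,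
      (¬ ∃ j : Fin 2, ∃ σ : Equiv.Perm (Fin N), ∀ k, site2 R s (τ k) = site2 R s (j, σ k)) →
      ∀ x : Fin N → E, ∀ v : Fin N → ℝ, (∀ k, dist (x k) (site2 R s (τ k)) < ε) →
      (∀ k, |v k - W (site2 R s (τ k))| < ε) →
      ∑ k, ENNReal.ofReal (v k + (1 + ∑ i, |W (s i)|)) <
        costK kk x + ENNReal.ofReal (N * (1 + ∑ i, |W (s i)|)) := by
  have hle : ∀ c : ℝ, 0 < c → ∀ᶠ ρ in 𝓝[>] (0 : ℝ), ρ ≤ c := fun c hc =>
    nhdsWithin_le_nhds (eventually_le_nhds hc)
  have : ∀ᶠ ε in 𝓝[>] (0 : ℝ), 0 < ε ∧ ε ≤ 1 ∧ ∀ τ : Fin N → Fin 2 × Fin N,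
      (¬ ∃ j : Fin 2, ∃ σ : Equiv.Perm (Fin N), ∀ k, site2 R s (τ k) = site2 R s (j, σ k)) →
      ∀ x : Fin N → E, ∀ v : Fin N → ℝ, (∀ k, dist (x k) (site2 R s (τ k)) < ε) →
      (∀ k, |v k - W (site2 R s (τ k))| < ε) →
      ∑ k, ENNReal.ofReal (v k + (1 + ∑ i, |W (s i)|)) <
        costK kk x + ENNReal.ofReal (N * (1 + ∑ i, |W (s i)|)) := by
    refine (eventually_mem_nhdsWithin).and ((hle 1 one_pos).and ?_)
    rw [eventually_all]
    intro τ
    by_cases hbad : ∃ j : Fin 2, ∃ σ : Equiv.Perm (Fin N), ∀ k,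
        site2 R s (τ k) = site2 R s (j, σ k)
    · exact Eventually.of_forall fun ε hh => absurd hbad hh
    · obtain ⟨ε, hε, h⟩ := strict_stable (bad_strict hS τ hbad)
      filter_upwards [hle ε hε] with ε' hε' _ x v hx hv
      exact h x v (fun k => (hx k).trans_le hε') (fun k => (hv k).trans_le hε')
  obtain ⟨ε, h1, h2, h3⟩ := this.exists
  exact ⟨ε, h1, h2, h3⟩

lemma qd_close (p : ℝ) (hp : 0 ≤ p) (i : Fin N) (y : E) {η : ℝ} (h1 : ‖y - s i‖ < η)
    (h2 : p * ‖y - s i‖ ^ 2 < η) : |qdK kk s o W p i y - W (s i)| ≤ (‖forceK kk s o‖ + 1) * η := by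
  have e : qdK kk s o W p i y - W (s i) = ⟪hvecK kk s o i, y - s i⟫ - p / 2 * ‖y - s i‖ ^ 2 := by
    unfold qdK quad; ring
  have hh : ‖hvecK kk s o i‖ ≤ ‖forceK kk s o‖ := by
    unfold hvecK
    split_ifs
    · exact le_rfl
    · rw [norm_zero]; exact norm_nonneg _
  have e1 : |⟪hvecK kk s o i, y - s i⟫| ≤ ‖forceK kk s o‖ * η := by
    refine (abs_real_inner_le_norm _ _).trans ?_
    gcongr
  have e2 : 0 ≤ p / 2 * ‖y - s i‖ ^ 2 := by (clear * - hp; positivity)
  have e3 : p / 2 * ‖y - s i‖ ^ 2 ≤ η := by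
    have : 0 ≤ p * ‖y - s i‖ ^ 2 := by (clear * - hp; positivity)
    linarith only [h2, e2]
  rw [e, abs_le]
  rw [abs_le] at e1
  have hη : 0 ≤ η := (norm_nonneg _).trans h1.le
  constructor <;> linarith only [h2, e1, e2]

end Scales

section Good

variable {E : Type*} [NormedAddCommGroup E] [InnerProductSpace ℝ E] {N : ℕ} {kk : ℝ → ℝ} [Ker kk]
variable {R : E ≃ₗᵢ[ℝ] E} {s : Fin N → E} {o b l : Fin N} {W : E → ℝ}

/-- value of the potential of particle `l` -/
noncomputable def ulK (kk : ℝ → ℝ) (s : Fin N → E) (o l : Fin N) (W : E → ℝ) (p : ℝ) (z : Fin N → E) : ℝ :=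
  cRK kk z - ∑ i ∈ {l}ᶜ, qdK kk s o W p i (z i)

lemma sum_fpot (p : ℝ) (g : E → ℝ) (y : Fin N → E) :
    ∑ i, fpotK kk s o l W p g i (y i) = ∑ i ∈ {l}ᶜ, qdK kk s o W p i (y i) + g (y l) := by
  rw [← Finset.sum_compl_add_sum {l}, Finset.sum_singleton]
  congr 1
  · refine Finset.sum_congr rfl fun i hi => ?_
    simp only [Finset.mem_compl, Finset.mem_singleton] at hi
    rw [fpotK, if_neg hi]
  · rw [fpotK, if_pos rfl]

/-- the inequality on the clusters of the first branch -/
lemma good_branch {p r : ℝ} (hr : 0 < r) (hpr : N * (gk kk r / r) < p / 2) {z y : Fin N → E}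
    (hz : ∀ i j, i ≠ j → r ≤ ‖z i - z j‖) (hy : Function.Injective y) (hl : y l = z l)
    (hcrit : ∀ i, i ≠ l → forceK kk z i = hvecK kk s o i - p • (z i - s i))
    {g : E → ℝ} (hg : g (z l) = ulK kk s o l W p z) :
    ∑ i, fpotK kk s o l W p g i (y i) ≤ cRK kk y ∧
    (cRK kk y = ∑ i, fpotK kk s o l W p g i (y i) → y = z) ∧
    cRK kk z = ∑ i, fpotK kk s o l W p g i (z i) := by
  have hzinj : Function.Injective z := by
    intro i j hij
    by_contra hne
    have := hz i j hne
    rw [hij, sub_self, norm_zero] at this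
    linarith only [hr, this]
  have key := key_ineqN (kk := kk) hzinj hy hr hz l hl (fun i => W (s i)) (hvecK kk s o) s p hcrit
  have e1 := sum_fpot (kk := kk) (s := s) (o := o) (l := l) (W := W) p g y
  have e2 := sum_fpot (kk := kk) (s := s) (o := o) (l := l) (W := W) p g z
  rw [hl, hg] at e1
  rw [hg] at e2
  unfold ulK at e1 e2
  unfold qdK at e1 e2
  have hnn : 0 ≤ ∑ i ∈ {l}ᶜ, ‖y i - z i‖ ^ 2 := Finset.sum_nonneg fun i _ => by (clear * -; positivity)
  have hc : 0 < p / 2 - N * (gk kk r / r) := by linarith only [hpr]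
  refine ⟨?_, ?_, ?_⟩
  · have := mul_nonneg hc.le hnn
    linarith only [key, e1, this]
  · intro heq
    have h0 : (p / 2 - N * (gk kk r / r)) * ∑ i ∈ {l}ᶜ, ‖y i - z i‖ ^ 2 ≤ 0 := by linarith only [key, e1, heq]
    have h1 : ∑ i ∈ {l}ᶜ, ‖y i - z i‖ ^ 2 = 0 := by
      by_contra hne
      have : 0 < ∑ i ∈ {l}ᶜ, ‖y i - z i‖ ^ 2 := lt_of_le_of_ne hnn (Ne.symm hne)
      have := mul_pos hc this
      linarith only [key, e1, heq, this]
    rw [Finset.sum_eq_zero_iff_of_nonneg (fun i _ => by (clear * -; positivity))] at h1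
    funext i
    by_cases hi : i = l
    · rw [hi]; exact hl
    · have := h1 i (by simp [hi])
      have h2 : ‖y i - z i‖ = 0 := by simpa only [norm_eq_zero, ne_eq, OfNat.ofNat_ne_zero, not_false_eq_true, pow_eq_zero_iff] using this
      exact sub_eq_zero.1 (norm_eq_zero.1 h2)
  · linarith only [e2]

/-- All the data of the construction. -/
structure PackK (kk : ℝ → ℝ) (R : E ≃ₗᵢ[ℝ] E) (s : Fin N → E) (o b l : Fin N) (W : E → ℝ) (p r η δ ε : ℝ)
    (x : E → Fin N → E) (g : E → ℝ) : Prop where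
  hS : SitesK kk R s o b l W
  hr : 0 < r
  hpr : N * (gk kk r / r) < p / 2
  sep : SepAt R s η
  hηε : η ≤ ε
  hε1 : ε ≤ 1
  bad : ∀ τ : Fin N → Fin 2 × Fin N,
      (¬ ∃ j : Fin 2, ∃ σ : Equiv.Perm (Fin N), ∀ k, site2 R s (τ k) = site2 R s (j, σ k)) →
      ∀ x : Fin N → E, ∀ v : Fin N → ℝ, (∀ k, dist (x k) (site2 R s (τ k)) < ε) →
      (∀ k, |v k - W (site2 R s (τ k))| < ε) →
      ∑ k, ENNReal.ofReal (v k + (1 + ∑ i, |W (s i)|)) <
        costK kk x + ENNReal.ofReal (N * (1 + ∑ i, |W (s i)|))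
  xo : ∀ a ∈ closedBall (0 : E) δ, x a o = a
  near : ∀ a ∈ closedBall (0 : E) δ, ∀ i, ‖x a i - s i‖ < η
  crit : ∀ a ∈ closedBall (0 : E) δ, ∀ i, i ≠ l →
    forceK kk (x a) i = hvecK kk s o i - p • (x a i - s i)
  rsep : ∀ a ∈ closedBall (0 : E) δ, ∀ i j, i ≠ j → r ≤ ‖x a i - x a j‖
  hg : ∀ a ∈ closedBall (0 : E) δ, g (x a l) = ulK kk s o l W p (x a)
  close : ∀ a ∈ closedBall (0 : E) δ, ∀ i, |fpotK kk s o l W p g i (x a i) - W (s i)| < ε

variable {p r η δ ε : ℝ} {x : E → Fin N → E} {g : E → ℝ}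

lemma PackK.dist_site (hP : PackK kk R s o b l W p r η δ ε x g) (t : Fin 2 × Fin N) {c : E}
    (hc : c ∈ closedBall (0 : E) δ) : dist (act R t.1 (x c t.2)) (site2 R s t) < η := by
  unfold site2
  rw [dist_act, dist_eq_norm]
  exact hP.near c hc t.2

lemma PackK.VV_pt (hP : PackK kk R s o b l W p r η δ ε x g) (t : Fin 2 × Fin N) {c : E}
    (hc : c ∈ closedBall (0 : E) δ) :
    VV R s (fpotK kk s o l W p g) η (act R t.1 (x c t.2)) = fpotK kk s o l W p g t.2 (x c t.2) := by
  refine VV_act_eq hP.hS hP.sep ?_ t.1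
  rw [mem_ball, dist_eq_norm]
  exact hP.near c hc t.2

lemma PackK.VV_bounds (hP : PackK kk R s o b l W p r η δ ε x g) (t : Fin 2 × Fin N) {c : E}
    (hc : c ∈ closedBall (0 : E) δ) :
    0 ≤ VV R s (fpotK kk s o l W p g) η (act R t.1 (x c t.2)) + (1 + ∑ i, |W (s i)|) ∧
    VV R s (fpotK kk s o l W p g) η (act R t.1 (x c t.2)) + (1 + ∑ i, |W (s i)|) ≤
      2 * (1 + ∑ i, |W (s i)|) := by
  rw [hP.VV_pt t hc]
  have h1 := hP.close c hc t.2
  have h2 := abs_W_le s W t.2
  have h3 := hP.hε1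
  rw [abs_lt] at h1
  have h4 := neg_abs_le (W (s t.2))
  have h5 := le_abs_self (W (s t.2))
  constructor <;> linarith only [h1, h2, h3, h4, h5]

/-- the global inequality and the description of contact -/
lemma PackK.main_ineq (hP : PackK kk R s o b l W p r η δ ε x g) (τ : Fin N → Fin 2 × Fin N)
    (c : Fin N → E) (hc : ∀ k, c k ∈ closedBall (0 : E) δ) (z : Fin N → E)
    (hz : ∀ k, z k = act R (τ k).1 (x (c k) (τ k).2)) :
    ∑ k, ENNReal.ofReal (VV R s (fpotK kk s o l W p g) η (z k) + (1 + ∑ i, |W (s i)|)) ≤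
      costK kk z + ENNReal.ofReal (N * (1 + ∑ i, |W (s i)|)) ∧
    (costK kk z + ENNReal.ofReal (N * (1 + ∑ i, |W (s i)|)) =
      ∑ k, ENNReal.ofReal (VV R s (fpotK kk s o l W p g) η (z k) + (1 + ∑ i, |W (s i)|)) →
      z o ∈ closedBall (0 : E) δ → ∃ j k, z k = act R j (x (act R j (z o)) b)) := by
  classical
  set M : ℝ := 1 + ∑ i, |W (s i)| with hM
  have hM1 : 1 ≤ M := by
    have : 0 ≤ ∑ i, |W (s i)| := Finset.sum_nonneg fun i _ => abs_nonneg _
    linarith
  set V := VV R s (fpotK kk s o l W p g) η with hV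
  have hS := hP.hS
  have hdz : ∀ k, dist (z k) (site2 R s (τ k)) < η := by
    intro k
    rw [hz k]
    exact hP.dist_site (τ k) (hc k)
  by_cases hgood : ∃ j : Fin 2, ∃ σ : Equiv.Perm (Fin N), ∀ k,
      site2 R s (τ k) = site2 R s (j, σ k)
  swap
  · have hlt := hP.bad τ hgood z (fun k => V (z k)) (fun k => (hdz k).trans_le hP.hηε) (by
      intro k
      rw [hz k, hV, hP.VV_pt (τ k) (hc k), W_site2 hS]
      exact hP.close (c k) (hc k) (τ k).2)
    exact ⟨hlt.le, fun heq => absurd heq hlt.ne'⟩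
  · obtain ⟨j, σ, hσ⟩ := hgood
    set y : Fin N → E := fun i => act R j (z (σ.symm i)) with hy
    have hzy : ∀ k, z k = act R j (y (σ k)) := by
      intro k
      simp only [hy]
      rw [act_act hS.RR, Equiv.symm_apply_apply]
    have hyball : ∀ i, y i ∈ ball (s i) η := by
      intro i
      rw [mem_ball]
      have e1 : dist (y i) (s i) = dist (act R j (y i)) (act R j (s i)) := (dist_act _ _ _).symm
      rw [e1]
      have e2 : act R j (y i) = z (σ.symm i) := by
        rw [hzy (σ.symm i), Equiv.apply_symm_apply]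
      rw [e2]
      have e3 := hdz (σ.symm i)
      rw [hσ (σ.symm i), Equiv.apply_symm_apply] at e3
      exact e3
    have hdisj := hP.sep.disj hS.inj
    have hyinj : Function.Injective y := by
      intro i i' hii
      refine hdisj i i' (y i) (hyball i) ?_
      rw [hii]
      exact hyball i'
    have hzinj : Function.Injective z := by
      intro k k' hkk
      rw [hzy k, hzy k'] at hkk
      exact σ.injective (hyinj (act_inj (R := R) j hkk))
    have hVy : ∀ i, V (act R j (y i)) = fpotK kk s o l W p g i (y i) := fun i =>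
      VV_act_eq hS hP.sep (hyball i) j
    -- the label
    have hτl : (τ (σ.symm l)).1 = j ∧ (τ (σ.symm l)).2 = l := by
      have e3 := hσ (σ.symm l)
      rw [Equiv.apply_symm_apply] at e3
      exact hS.eq_of_site2 (j := j) (j' := (τ (σ.symm l)).1) (i' := (τ (σ.symm l)).2)
        (Or.inr rfl) e3
    set a : E := c (σ.symm l) with ha
    have haD : a ∈ closedBall (0 : E) δ := hc _
    have hyl : y l = x a l := by
      simp only [hy]
      rw [hz (σ.symm l), hτl.1, hτl.2, act_act hS.RR]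
    obtain ⟨g1, g2, g3⟩ := good_branch (s := s) (o := o) (W := W) hP.hr hP.hpr (hP.rsep a haD)
      hyinj hyl (hP.crit a haD) (hP.hg a haD)
    have hcy : cRK kk y = cRK kk z := by
      have e1 : cRK kk y = cRK kk (fun i => z (σ.symm i)) := cRN_act j _
      rw [e1, cRN_perm]
    have hsumV : ∑ k, V (z k) = ∑ i, fpotK kk s o l W p g i (y i) := by
      rw [← Equiv.sum_comp σ (fun i => fpotK kk s o l W p g i (y i))]
      refine Finset.sum_congr rfl fun k _ => ?_
      rw [← hVy, ← hzy]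
    have hnn : ∀ k, 0 ≤ V (z k) + M := by
      intro k
      rw [hz k]
      exact (hP.VV_bounds (τ k) (hc k)).1
    have hsum : ∑ k, ENNReal.ofReal (V (z k) + M) =
        ENNReal.ofReal (∑ i, fpotK kk s o l W p g i (y i) + N * M) := by
      rw [← ENNReal.ofReal_sum_of_nonneg (fun k _ => hnn k), Finset.sum_add_distrib, hsumV,
        Finset.sum_const, Finset.card_univ, Fintype.card_fin, nsmul_eq_mul]
    have hcost : costK kk z + ENNReal.ofReal (N * M) = ENNReal.ofReal (cRK kk y + N * M) := by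
      rw [coulombN_eq_ofReal hzinj, hcy, ENNReal.ofReal_add (cRN_nonneg _) (by (clear * -; positivity))]
    rw [hsum, hcost]
    refine ⟨ENNReal.ofReal_le_ofReal (by linarith only [g1]), ?_⟩
    intro heq hzo
    have hnn2 : 0 ≤ ∑ i, fpotK kk s o l W p g i (y i) + N * M := by
      rw [← hsumV]
      have : ∑ k, (V (z k) + M) = ∑ k, V (z k) + N * M := by
        rw [Finset.sum_add_distrib, Finset.sum_const, Finset.card_univ, Fintype.card_fin,
          nsmul_eq_mul]
      rw [← this]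
      exact Finset.sum_nonneg fun k _ => hnn k
    have hnn3 : 0 ≤ cRK kk y + N * M := add_nonneg (cRN_nonneg _) (by (clear * -; positivity))
    have heq2 := (ENNReal.ofReal_eq_ofReal_iff hnn3 hnn2).1 heq
    have hyx : y = x a := g2 (by linarith only [heq2])
    -- σ o = o
    have hσo : σ o = o := by
      have e1 : dist (z o) (site2 R s (0, o)) < η := by
        have := hP.near (z o) hzo o
        rw [hP.xo (z o) hzo] at this
        rw [dist_eq_norm]
        exact this
      have e2 := hP.sep _ _ (z o) (hdz o) e1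
      have e3 : site2 R s (j, σ o) = 0 := by
        rw [← hσ o, e2]
        exact hS.so
      exact hS.site2_o e3
    have hyo : y o = act R j (z o) := by
      simp only [hy]
      rw [show σ.symm o = o by rw [Equiv.symm_apply_eq]; exact hσo.symm]
    refine ⟨j, σ.symm b, ?_⟩
    rw [hzy (σ.symm b), Equiv.apply_symm_apply, ← hyo, hyx, hP.xo a haD]

end Good

end Vale.Agent.P121.H414.K
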