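import Vale.Agent.P121.DefsN

open MeasureTheory Set Filter Topology
open scoped ENNReal NNReal ContDiff

namespace Vale.Agent.P121

variable {E : Type*} [NormedAddCommGroup E]

open Classical in
/-- The pair interaction `k (|x - y|)` of two different points; it is `∞` for `x = y`. -/
noncomputable def pairCost (k : ℝ → ℝ) (x y : E) : ℝ≥0∞ :=
  if x = y then ∞ else ENNReal.ofReal (k (dist x y))

/-- The cost `∑_{i<j} k (|x_i - x_j|)` of `N` points. -/
noncomputable def costK (k : ℝ → ℝ) {N : ℕ} (x : Fin N → E) : ℝ≥0∞ :=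
  ∑ i, ∑ j ∈ Finset.Ioi i, pairCost k (x i) (x j)

/-- The Kantorovich value of the `N`-marginal problem with pair interaction `k`. -/
noncomputable def kantorovichK [MeasurableSpace E] (k : ℝ → ℝ) (N : ℕ) (μ : Measure E) : ℝ≥0∞ :=
  ⨅ (π : Measure (Fin N → E)) (_ : IsCouplingN μ π), ∫⁻ x, costK k x ∂π

/-- The cost of the Monge plan `(T_0, …, T_{N-1})_# μ`. -/
noncomputable def mongeCostK [MeasurableSpace E] (k : ℝ → ℝ) {N : ℕ} (μ : Measure E)
    (T : Fin N → E → E) : ℝ≥0∞ :=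
  ∫⁻ x, costK k (fun i => T i x) ∂μ

/-- `μ` admits an optimal Monge plan for the `N`-marginal problem with pair interaction `k`. -/
def HasOptimalMongePlanK [MeasurableSpace E] (k : ℝ → ℝ) (N : ℕ) (μ : Measure E) : Prop :=
  ∃ T : Fin N → E → E, IsMongeN μ T ∧ mongeCostK k μ T = kantorovichK k N μ

/-- The pair potential `k` has a convex singularity at `0`: it is `C^∞` with `k' < 0` and
`k'' > 0` on some interval `(0, r₀)`, and `k (r) → ∞` as `r → 0+`. Nothing is asked at larger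
distances. -/
def HasConvexSingularity (k : ℝ → ℝ) : Prop :=
  (∃ r₀ > 0, ContDiffOn ℝ ∞ k (Ioo 0 r₀) ∧
    ∀ r ∈ Ioo 0 r₀, deriv k r < 0 ∧ 0 < deriv (deriv k) r) ∧
  Tendsto k (𝓝[>] 0) atTop

/-- `μ` is a probability measure on `d`-space with the density `f ≥ 0`, `f ∈ C_c^∞(Ω)`. In
particular it is absolutely continuous, with bounded density and compact support. -/
def HasTestDensity {d : ℕ} (Ω : Set (EuclideanSpace ℝ (Fin d)))
    (f : EuclideanSpace ℝ (Fin d) → ℝ) (μ : Measure (EuclideanSpace ℝ (Fin d))) : Prop :=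
  ContDiff ℝ ∞ f ∧ HasCompactSupport f ∧ tsupport f ⊆ Ω ∧ (∀ x, 0 ≤ f x) ∧
  μ = volume.withDensity (fun x => ENNReal.ofReal (f x)) ∧
  IsProbabilityMeasure μ ∧ μ ≪ volume ∧ (∃ C : ℝ≥0, μ ≤ C • volume) ∧
  (∃ S : Set (EuclideanSpace ℝ (Fin d)), IsCompact S ∧ μ Sᶜ = 0)

end Vale.Agent.P121
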