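import Vale.Agent.P121.H414.K.D

set_option linter.all false

open MeasureTheory Set Filter Topology Metric
open scoped RealInnerProductSpace ENNReal NNReal ContDiff

namespace Vale.Agent.P121.H414.K

section Final

variable {E : Type*} [NormedAddCommGroup E] [InnerProductSpace ℝ E] [FiniteDimensional ℝ E]
  [MeasurableSpace E] [BorelSpace E] {N : ℕ} {kk : ℝ → ℝ} [Ker kk]
variable {R : E ≃ₗᵢ[ℝ] E} {s : Fin N → E} {o b l : Fin N} {W : E → ℝ}

omit [FiniteDimensional ℝ E] [MeasurableSpace E] [BorelSpace E] in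
lemma kap_eq_toReal (w : E) : kap kk w = (kE kk ‖w‖).toReal := by
  by_cases hw : w = 0
  · rw [hw, kap_zero, norm_zero, kE_nonpos le_rfl, ENNReal.toReal_top]
  · have h0 := norm_pos_iff.2 hw
    rw [kap_ne hw, kE_pos h0, ENNReal.toReal_ofReal (Ker.pos _ h0).le]

omit [FiniteDimensional ℝ E] in
lemma measurable_kap : Measurable (kap kk : E → ℝ) := by
  have h1 : (kap kk : E → ℝ) = fun w => (kE kk ‖w‖).toReal := funext kap_eq_toReal
  rw [h1]
  exact (continuous_kE.measurable.comp measurable_norm).ennreal_toReal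

/-- existence of the data -/
lemma exists_packS (hS : SitesK kk R s o b l W) :
    ∃ (p r η δ ε Λ : ℝ) (x : E → Fin N → E) (g : E → ℝ), 0 < δ ∧ 0 < Λ ∧
      PackK kk R s o b l W p r η δ ε x g ∧ Measurable g ∧
      ContinuousOn x (closedBall (0 : E) δ) ∧
      (∀ a ∈ closedBall (0 : E) δ, ∀ a' ∈ closedBall (0 : E) δ, ∀ i,
        ‖a - a'‖ ≤ Λ * ‖x a i - x a' i‖) ∧
      (∀ a ∈ ball (0 : E) δ, ContDiffAt ℝ ∞ x a) := by
  classical
  obtain ⟨ρA, hρA, PA, hPA, KA, hKA, hanti⟩ := exists_antilip (kk := kk) hS.inj hS.ol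
  obtain ⟨ε, hε, hε1, hbad⟩ := exists_eps hS
  obtain ⟨r₀, hr₀, hsep⟩ := exists_sep R s
  obtain ⟨η₁, hη₁, hclose⟩ := cRN_close (kk := kk) hS.inj (show 0 < ε / 2 by positivity)
  -- choice of η
  obtain ⟨η, hη, hηη₁, hηε, hηr, hηN, hηA⟩ : ∃ η : ℝ, 0 < η ∧ η ≤ η₁ ∧ η ≤ ε ∧ η ≤ r₀ / 4 ∧
      η ≤ ε / (4 * (N + 1) * (‖forceK kk s o‖ + 1)) ∧ η ≤ ρA := by
    have hle : ∀ c : ℝ, 0 < c → ∀ᶠ ρ in 𝓝[>] (0 : ℝ), ρ ≤ c := fun c hc =>
      nhdsWithin_le_nhds (eventually_le_nhds hc)
    have : ∀ᶠ η in 𝓝[>] (0 : ℝ), 0 < η ∧ η ≤ η₁ ∧ η ≤ ε ∧ η ≤ r₀ / 4 ∧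
        η ≤ ε / (4 * (N + 1) * (‖forceK kk s o‖ + 1)) ∧ η ≤ ρA := by
      filter_upwards [self_mem_nhdsWithin, hle η₁ hη₁, hle ε hε, hle (r₀ / 4) (by positivity),
        hle (ε / (4 * (N + 1) * (‖forceK kk s o‖ + 1))) (by (clear * - hε; positivity)),
        hle ρA hρA] with η a b c d e f
        using ⟨a, b, c, d, e, f⟩
    exact this.exists
  have hηN' : (N + 1) * ((‖forceK kk s o‖ + 1) * η) ≤ ε / 4 := by
    calc (N + 1) * ((‖forceK kk s o‖ + 1) * η)
        ≤ (N + 1) * ((‖forceK kk s o‖ + 1) * (ε / (4 * (N + 1) * (‖forceK kk s o‖ + 1)))) := by (clear * - hηN; gcongr)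
      _ = ε / 4 := by field_simp
  have hho : hvecK kk s o o = forceK kk s o := by unfold hvecK; rw [if_pos rfl]
  obtain ⟨P₀, hP₀, hloc⟩ := local_packageN hS.inj hS.ol (hvecK kk s o) hho hη
  set r : ℝ := r₀ / 2 with hr
  have hr0 : 0 < r := by positivity
  set p : ℝ := max (max P₀ PA) (2 * (N * (gk kk r / r)) + 1) with hp
  have hp0 : 0 < p := lt_of_lt_of_le hP₀ ((le_max_left _ _).trans (le_max_left _ _))
  have hpA : PA ≤ p := (le_max_right P₀ PA).trans (le_max_left _ _)
  have hpr : N * (gk kk r / r) < p / 2 := by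
    have := le_max_right (max P₀ PA) (2 * (N * (gk kk r / r)) + 1)
    linarith only [this]
  obtain ⟨δ, hδ, Λ, hΛ, x, hx, hlip, hcont⟩ := hloc p ((le_max_left _ _).trans (le_max_left _ _))
  rw [hS.so] at hx hlip hcont
  have hrsep : ∀ a ∈ closedBall (0 : E) δ, ∀ i j, i ≠ j → r ≤ ‖x a i - x a j‖ := by
    intro a ha i j hij
    have h1 := hsep (0, i) (0, j) (fun h => hij (hS.inj h))
    have h2 := (hx a ha).2.1 i
    have h3 := (hx a ha).2.1 j
    have h4 : dist (site2 R s (0, i)) (site2 R s (0, j)) = ‖s i - s j‖ := dist_eq_norm _ _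
    have h5 : ‖s i - s j‖ ≤ ‖x a i - s i‖ + ‖x a i - x a j‖ + ‖x a j - s j‖ := by
      have e : s i - s j = -(x a i - s i) + (x a i - x a j) + (x a j - s j) := by abel
      rw [e]
      refine (norm_add_le _ _).trans ?_
      gcongr
      refine (norm_add_le _ _).trans ?_
      rw [norm_neg]
    linarith only [hηr, hr, h1, h2, h3, h4, h5]
  -- the implicit potential
  set D := closedBall (0 : E) δ with hD
  have hDm : MeasurableSet D := measurableSet_closedBall
  have hstd : StandardBorelSpace D := hDm.standardBorel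
  have hemb : MeasurableEmbedding (fun a : D => x a l) := by
    refine Measurable.measurableEmbedding ?_ ?_
    · have h1 : Continuous (fun a : D => x a) := hcont.domRestrict
      exact ((continuous_apply l).comp h1).measurable
    · intro a a' haa
      have := hlip a a.2 a' a'.2 l
      simp only at haa
      rw [haa, sub_self, norm_zero, mul_zero] at this
      exact Subtype.ext (sub_eq_zero.1 (norm_le_zero_iff.1 this))
  have hqdm : ∀ i, Measurable (qdK kk s o W p i) := by
    intro i
    unfold qdK quad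
    fun_prop
  have hulm : Measurable (fun a : D => ulK kk s o l W p (x a)) := by
    have h1 : Measurable (fun a : D => x a) := hcont.domRestrict.measurable
    have h2 : ∀ i, Measurable (fun a : D => x a i) := fun i => (measurable_pi_apply i).comp h1
    unfold ulK cRK
    refine Measurable.sub ?_ ?_
    · refine measurable_const.mul (Finset.measurable_sum _ fun i _ =>
        Finset.measurable_sum _ fun j _ => ?_)
      exact measurable_kap.comp ((h2 i).sub (h2 j))
    · exact Finset.measurable_sum _ fun i _ => (hqdm i).comp (h2 i)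
  obtain ⟨g, hgm, hgeq⟩ := hemb.exists_measurable_extend hulm (fun _ => inferInstance)
  have hg : ∀ a ∈ D, g (x a l) = ulK kk s o l W p (x a) := fun a ha => congrFun hgeq ⟨a, ha⟩
  have hqclose : ∀ a ∈ D, ∀ i, i ≠ l → |qdK kk s o W p i (x a i) - W (s i)| ≤
      (‖forceK kk s o‖ + 1) * η := by
    intro a ha i hi
    exact qd_close p hp0.le i _ ((hx a ha).2.1 i) ((hx a ha).2.2.2 i hi)
  have hsmall : (‖forceK kk s o‖ + 1) * η < ε := by
    have h1 : 0 ≤ (‖forceK kk s o‖ + 1) * η := by (clear * - hη; positivity)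
    have h2 : (0 : ℝ) ≤ N := Nat.cast_nonneg _
    nlinarith only [hε, hηN']
  have hxinj : ∀ a ∈ closedBall (0 : E) δ, Function.Injective (x a) := by
    intro a ha i i' hii
    by_contra hne
    have h1 := hrsep a ha i i' hne
    rw [hii, sub_self, norm_zero] at h1
    linarith only [h1, hr0]
  have hxball : ∀ a ∈ closedBall (0 : E) δ, x a ∈ ball s ρA := by
    intro a ha
    rw [mem_ball, dist_pi_lt_iff hρA]
    intro i
    rw [dist_eq_norm]
    exact ((hx a ha).2.1 i).trans_le hηA
  have hsmooth := smooth_family (hanti p hpA) hS.ol (h := hvecK kk s o) hcont hxinj hxball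
    (fun a ha => (hx a ha).2.2.1) (fun a ha => (hx a ha).1)
  refine ⟨p, r, η, δ, ε, Λ, x, g, hδ, hΛ, ?_, hgm, hcont, hlip, hsmooth⟩
  refine ⟨hS, hr0, hpr, sepAt_of hsep (by linarith only [hη, hηr]), hηε, hε1, hbad, fun a ha => (hx a ha).1,
    fun a ha => (hx a ha).2.1, fun a ha => (hx a ha).2.2.1, hrsep, hg, ?_⟩
  intro a ha i
  by_cases hi : i = l
  · subst hi
    rw [fpotK, if_pos rfl, hg a ha]
    have h1 := hclose (x a) (fun i => ((hx a ha).2.1 i).trans_le hηη₁)
    have h2 : W (s i) = cRK kk s - ∑ k ∈ {i}ᶜ, W (s k) := by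
      have := hS.W_sum
      rw [← Finset.sum_compl_add_sum {i}, Finset.sum_singleton] at this
      linarith only [this]
    have h3 : ulK kk s o i W p (x a) - W (s i) = (cRK kk (x a) - cRK kk s) -
        ∑ k ∈ {i}ᶜ, (qdK kk s o W p k (x a k) - W (s k)) := by
      rw [h2, ulK, Finset.sum_sub_distrib]
      ring
    have h4 : |∑ k ∈ {i}ᶜ, (qdK kk s o W p k (x a k) - W (s k))| ≤ ε / 4 := by
      calc |∑ k ∈ {i}ᶜ, (qdK kk s o W p k (x a k) - W (s k))|
          ≤ ∑ k ∈ {i}ᶜ, |qdK kk s o W p k (x a k) - W (s k)| := Finset.abs_sum_le_sum_abs _ _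
        _ ≤ ∑ _k ∈ ({i}ᶜ : Finset (Fin N)), (‖forceK kk s o‖ + 1) * η := by
            refine Finset.sum_le_sum fun k hk => hqclose a ha k ?_
            simpa using hk
        _ ≤ ∑ _k : Fin N, (‖forceK kk s o‖ + 1) * η :=
            Finset.sum_le_univ_sum_of_nonneg fun _ => by (clear * - hη; positivity)
        _ = N * ((‖forceK kk s o‖ + 1) * η) := by
            rw [Finset.sum_const, Finset.card_univ, Fintype.card_fin, nsmul_eq_mul]
        _ ≤ (N + 1) * ((‖forceK kk s o‖ + 1) * η) := by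
            gcongr
            linarith only []
        _ ≤ ε / 4 := hηN'
    rw [h3]
    rw [abs_le] at h4
    rw [abs_lt] at h1 ⊢
    constructor <;> linarith only [h1, h4]
  · rw [fpotK, if_neg hi]
    exact (hqclose a ha i hi).trans_lt hsmall

/-- The construction from the discrete data. -/
theorem main_of_sitesS [NeZero N] (hS : SitesK kk R s 0 b l W) :
    ∃ f : E → ℝ, ContDiff ℝ ∞ f ∧ HasCompactSupport f ∧ (∀ x, 0 ≤ f x) ∧
      ∃ μ : Measure E, μ = (volume : Measure E).withDensity (fun x => ENNReal.ofReal (f x)) ∧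
      IsProbabilityMeasure μ ∧ μ (closedBall (0 : E) (∑ i, ‖s i‖ + 1))ᶜ = 0 ∧
      kantorovichK kk N μ ≠ (⊤ : ℝ≥0∞) ∧
      ∀ T : Fin N → E → E, IsMongeN μ T → mongeCostK kk μ T ≠ kantorovichK kk N μ := by
  classical
  obtain ⟨p, r, η, δ, ε, Λ, x, g, hδ, hΛ, hP, hgm, hcont, hlip, hsmooth⟩ := exists_packS hS
  set D := closedBall (0 : E) δ with hD
  have hDm : MeasurableSet D := measurableSet_closedBall
  -- smooth bump on D
  obtain ⟨φ, hφs, hφc, hφt, hφ0, hφ1⟩ := exists_bump (E := E) hδ
  let ν : Measure E := (volume : Measure E).withDensity (fun x => ENNReal.ofReal (φ x))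
  have hν : IsProbabilityMeasure ν := by
    refine ⟨?_⟩
    simp only [ν]
    rw [withDensity_apply _ MeasurableSet.univ, Measure.restrict_univ]
    exact hφ1
  have hνD : ν Dᶜ = 0 := by
    simp only [ν]
    rw [withDensity_apply _ hDm.compl]
    rw [setLIntegral_congr_fun hDm.compl (g := fun _ => 0), lintegral_zero]
    intro x hx
    have h1 : x ∉ tsupport φ := fun h => hx (ball_subset_closedBall (hφt h))
    simp only
    rw [image_eq_zero_of_notMem_tsupport h1, ENNReal.ofReal_zero]
  -- the maps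
  let X : Fin N → E → E := fun i => D.piecewise (fun a => x a i) (fun _ => 0)
  have hXe : ∀ i, ∀ a ∈ D, X i a = x a i := fun i a ha => Set.piecewise_eq_of_mem _ _ _ ha
  have hXm : ∀ i, Measurable (X i) := fun i =>
    ((continuous_apply i).comp_continuousOn hcont).measurable_piecewise continuousOn_const hDm
  let F : Fin 2 → Fin N → E → E := fun j i a => act R j (X i (act R j a))
  have hFm : ∀ j i, Measurable (F j i) := fun j i =>
    (continuous_act j).measurable.comp ((hXm i).comp (continuous_act j).measurable)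
  have hactD : ∀ j, ∀ a ∈ D, act R j a ∈ D := by
    intro j a ha
    rw [hD, mem_closedBall, dist_zero_right, norm_act, ← dist_zero_right]
    exact ha
  have hFe : ∀ j i, ∀ a ∈ D, F j i a = act R j (x (act R j a) i) := by
    intro j i a ha
    show act R j (X i (act R j a)) = _
    rw [hXe i _ (hactD j a ha)]
  have hFlip : ∀ j i, ∀ a ∈ D, ∀ a' ∈ D, ‖a - a'‖ ≤ Λ * ‖F j i a - F j i a'‖ := by
    intro j i a ha a' ha'
    rw [hFe j i a ha, hFe j i a' ha', ← act_sub, norm_act]
    have := hlip _ (hactD j a ha) _ (hactD j a' ha') i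
    rwa [← act_sub, norm_act] at this
  have hFinj : ∀ j i, InjOn (F j i) D := by
    intro j i a ha a' ha' haa
    have := hFlip j i a ha a' ha'
    rw [haa, sub_self, norm_zero, mul_zero] at this
    exact sub_eq_zero.1 (norm_le_zero_iff.1 this)
  have hF0 : ∀ j, ∀ a ∈ D, F j 0 a = a := by
    intro j a ha
    rw [hFe j 0 a ha, hP.xo _ (hactD j a ha), act_act hS.RR]
  have hFdist : ∀ j i, ∀ a ∈ D, dist (F j i a) (site2 R s (j, i)) < η := by
    intro j i a ha
    rw [hFe j i a ha]
    exact hP.dist_site (j, i) (hactD j a ha)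
  have hsepD : ∀ j j' i, (j', i) ≠ (j, b) → Disjoint (F j b '' D) (F j' i '' D) := by
    intro j j' i hne
    rw [Set.disjoint_left]
    rintro _ ⟨a, ha, rfl⟩ ⟨a', ha', haa⟩
    have h1 := hFdist j b a ha
    have h2 := hFdist j' i a' ha'
    rw [haa] at h2
    have h3 := hP.sep _ _ _ h2 h1
    have h4 := hS.eq_of_site2 (Or.inl rfl) h3
    exact hne (Prod.ext h4.1 h4.2)
  -- the potential
  set M : ℝ := 1 + ∑ i, |W (s i)| with hM
  set V : E → ℝ := VV R s (fpotK kk s 0 l W p g) η with hV
  have hVm : Measurable V := by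
    refine measurable_VV (fun i => ?_) η
    unfold fpotK
    split_ifs
    · exact hgm
    · unfold qdK quad
      fun_prop
  let U : E → ℝ≥0∞ := fun y => ENNReal.ofReal (min (V y + M) (2 * M))
  have hUm : Measurable U := ((hVm.add_const M).min measurable_const).ennreal_ofReal
  have hUe : ∀ j i, ∀ a ∈ D, U (act R j (x a i)) = ENNReal.ofReal (V (act R j (x a i)) + M) := by
    intro j i a ha
    have := (hP.VV_bounds (j, i) ha).2
    show ENNReal.ofReal (min (V (act R j (x a i)) + M) (2 * M)) = _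
    rw [min_eq_left this]
  -- representation of points of the union of the clusters
  have hrep : ∀ z : Fin N → E, (∀ k, z k ∈ ⋃ j, ⋃ i, F j i '' D) →
      ∃ (τ : Fin N → Fin 2 × Fin N) (c : Fin N → E), (∀ k, c k ∈ D) ∧
        ∀ k, z k = act R (τ k).1 (x (c k) (τ k).2) := by
    intro z hz
    have h1 : ∀ k, ∃ t : Fin 2 × Fin N, ∃ c ∈ D, z k = act R t.1 (x c t.2) := by
      intro k
      obtain ⟨j, i, a, ha, haz⟩ := by simpa only [mem_iUnion, mem_image] using hz k
      refine ⟨(j, i), act R j a, hactD j a ha, ?_⟩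
      rw [← haz, hFe j i a ha]
    choose τ c hc hzc using h1
    exact ⟨τ, c, hc, hzc⟩
  have hUsum : ∀ (τ : Fin N → Fin 2 × Fin N) (c : Fin N → E), (∀ k, c k ∈ D) →
      ∀ z : Fin N → E, (∀ k, z k = act R (τ k).1 (x (c k) (τ k).2)) →
      ∑ k, U (z k) = ∑ k, ENNReal.ofReal (V (z k) + M) := by
    intro τ c hc z hz
    refine Finset.sum_congr rfl fun k _ => ?_
    rw [hz k]
    exact hUe _ _ _ (hc k)
  have main := abstractN (kk := kk) ν D hDm hνD F hFm hFinj hF0 b hsepD U hUm (ENNReal.ofReal (2 * M))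
    ENNReal.ofReal_ne_top (fun y => ENNReal.ofReal_le_ofReal (min_le_right _ _))
    (ENNReal.ofReal (N * M)) ENNReal.ofReal_ne_top ?_ ?_ ?_
  · -- the smooth density
    have hactS : ∀ j, ContDiff ℝ ∞ (act R j) := by
      intro j
      unfold act
      split_ifs
      · exact contDiff_id
      · exact R.toContinuousLinearEquiv.contDiff
    have hactB : ∀ j, ∀ a ∈ ball (0 : E) δ, act R j a ∈ ball (0 : E) δ := by
      intro j a ha
      rw [mem_ball, dist_zero_right, norm_act, ← dist_zero_right]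
      exact ha
    have hFS : ∀ j i, ∀ a ∈ ball (0 : E) δ, ContDiffAt ℝ ∞ (F j i) a := by
      intro j i a ha
      have h1 : ContDiffAt ℝ ∞ (fun a => x a i) (act R j a) := by
        have := hsmooth _ (hactB j a ha)
        rw [contDiffAt_pi] at this
        exact this i
      have h2 : ContDiffAt ℝ ∞ (fun a => act R j (x (act R j a) i)) a :=
        ContDiffAt.comp (g := act R j) a (hactS j).contDiffAt
          (ContDiffAt.comp (g := fun a => x a i) a h1 (hactS j).contDiffAt)
      refine h2.congr_of_eventuallyEq ?_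
      filter_upwards [isOpen_ball.mem_nhds ha] with a' ha'
      exact hFe j i a' (ball_subset_closedBall ha')
    have hFd : ∀ j i, ∀ a ∈ ball (0 : E) δ, ∀ v, fderiv ℝ (F j i) a v = 0 → v = 0 := by
      intro j i a ha v hv
      have h1 := fderiv_inj (f := F j i) (isOpen_ball (x := (0 : E)) (ε := δ)) (K := Λ)
        (fun y hy z hz => hFlip j i y (ball_subset_closedBall hy) z (ball_subset_closedBall hz)) ha
        ((hFS j i a ha).differentiableAt (by simp)).hasFDerivAt v
      rw [hv, norm_zero, mul_zero] at h1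
      exact norm_le_zero_iff.1 h1
    have hpush : ∀ j i, ∃ g : E → ℝ, ContDiff ℝ ∞ g ∧ HasCompactSupport g ∧ (∀ x, 0 ≤ g x) ∧
        ∀ t, MeasurableSet t → ν (F j i ⁻¹' t) = ∫⁻ x in t, ENNReal.ofReal (g x) :=
      fun j i => smooth_push volume (hFm j i) isOpen_ball
        (fun a ha => hFS j i a ha)
        ((hFinj j i).mono ball_subset_closedBall) (hFd j i) hφs hφc hφt hφ0
    choose gg hgs hgc hg0 hgt using hpush
    refine ⟨fun x => (2 * N : ℝ)⁻¹ * ∑ j, ∑ i, gg j i x, ?_, ?_, ?_, measN ν F, ?_, main.1, ?_,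
      main.2.1, main.2.2⟩
    · exact contDiff_const.mul (ContDiff.sum fun j _ => ContDiff.sum fun i _ => hgs j i)
    · exact compact_sum gg hgc _
    · intro x
      exact mul_nonneg (by positivity)
        (Finset.sum_nonneg fun j _ => Finset.sum_nonneg fun i _ => hg0 j i x)
    · ext t ht
      rw [measN_apply ν hFm ht, withDensity_apply _ ht]
      simp only [hgt _ _ t ht]
      exact (lint_sum gg (fun j i => (hgs j i).continuous.measurable) hg0 t).symm
    · have hS' := measN_ae_mem hDm hνD hFm hFinj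
      have : ∀ᵐ y ∂(measN ν F), y ∈ closedBall (0 : E) (∑ i, ‖s i‖ + 1) := by
        filter_upwards [hS'] with y hy
        obtain ⟨j, i, a, ha, haz⟩ := by simpa only [mem_iUnion, mem_image] using hy
        rw [mem_closedBall, dist_zero_right, ← haz, hFe j i a ha, norm_act]
        have h1 := hP.near _ (hactD j a ha) i
        have h2 : ‖s i‖ ≤ ∑ i, ‖s i‖ :=
          Finset.single_le_sum (f := fun i => ‖s i‖) (fun i _ => norm_nonneg _)
            (Finset.mem_univ i)
        have h3 : ‖x (act R j a) i‖ ≤ ‖x (act R j a) i - s i‖ + ‖s i‖ := by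
          have := norm_add_le (x (act R j a) i - s i) (s i)
          rwa [sub_add_cancel] at this
        have h4 := hP.hηε
        have h5 := hP.hε1
        linarith only [h1, h2, h3, h4, h5]
      rw [ae_iff] at this
      exact this
  · intro z hz
    obtain ⟨τ, c, hc, hzc⟩ := hrep z hz
    rw [hUsum τ c hc z hzc]
    exact (hP.main_ineq τ c hc z hzc).1
  · intro j a ha
    have hz : ∀ k, F j k a = act R ((fun k => (j, k) : Fin N → Fin 2 × Fin N) k).1
        (x ((fun _ => act R j a : Fin N → E) k) ((fun k => (j, k) : Fin N → Fin 2 × Fin N) k).2) :=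
      fun k => hFe j k a ha
    have haD := hactD j a ha
    rw [hUsum _ _ (fun _ => haD) _ hz]
    have hrs := hP.rsep _ haD
    have hxinj : Function.Injective (x (act R j a)) := by
      intro i i' hii
      by_contra hne
      have h1 := hrs i i' hne
      rw [hii, sub_self, norm_zero] at h1
      have := hP.hr
      linarith only [h1, this]
    have g3 := (good_branch (s := s) (o := 0) (W := W) hP.hr hP.hpr hrs hxinj rfl
      (hP.crit _ haD) (hP.hg _ haD)).2.2
    have hFa : (fun i => F j i a) = fun i => act R j (x (act R j a) i) :=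
      funext fun i => hFe j i a ha
    have hFainj : Function.Injective (fun i => F j i a) := by
      rw [hFa]
      intro i i' hii
      exact hxinj (act_inj (R := R) j hii)
    rw [coulombN_eq_ofReal hFainj, hFa, cRN_act,
      ← ENNReal.ofReal_add (cRN_nonneg _) (by (clear * -; positivity))]
    have hVe : ∀ k, V (F j k a) = fpotK kk s 0 l W p g k (x (act R j a) k) := by
      intro k
      rw [hFe j k a ha]
      exact hP.VV_pt (j, k) haD
    have hnn : ∀ k, 0 ≤ V (F j k a) + M := by
      intro k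
      rw [hFe j k a ha]
      exact (hP.VV_bounds (j, k) haD).1
    rw [← ENNReal.ofReal_sum_of_nonneg (fun k _ => hnn k), Finset.sum_add_distrib,
      Finset.sum_const, Finset.card_univ, Fintype.card_fin, nsmul_eq_mul, g3]
    simp only [hVe]
  · intro z hz hz0 heq
    obtain ⟨τ, c, hc, hzc⟩ := hrep z hz
    rw [hUsum τ c hc z hzc] at heq
    obtain ⟨j, k, hk⟩ := (hP.main_ineq τ c hc z hzc).2 heq hz0
    exact ⟨j, k, by rw [hk, hFe j b _ hz0]⟩


end Final

end Vale.Agent.P121.H414.K
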