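import Vale.Agent.P121.H414.K.E

set_option linter.all false

open MeasureTheory Set Filter Topology Metric
open scoped RealInnerProductSpace ENNReal NNReal ContDiff

namespace Vale.Agent.P121.H414.K


section energy

variable {E : Type*} [NormedAddCommGroup E] [InnerProductSpace ℝ E] [DecidableEq E] {kk : ℝ → ℝ} [Ker kk]

/-- energy of a finite set of points. -/
noncomputable def EnK (kk : ℝ → ℝ) (X : Finset E) : ℝ := 1 / 2 * ∑ x ∈ X, ∑ y ∈ X, kap kk (x - y)

theorem En_union (A B : Finset E) (h : Disjoint A B) :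
    EnK kk (A ∪ B) = EnK kk A + EnK kk B + ∑ b ∈ B, ∑ a ∈ A, kap kk (b - a) := by
  unfold EnK
  rw [Finset.sum_union h]
  simp only [Finset.sum_union h, Finset.sum_add_distrib]
  have h2 : ∑ x ∈ A, ∑ y ∈ B, kap kk (x - y) = ∑ b ∈ B, ∑ a ∈ A, kap kk (b - a) := by
    rw [Finset.sum_comm]
    refine Finset.sum_congr rfl fun b _ => Finset.sum_congr rfl fun a _ => ?_
    rw [kap_sub_comm]
  rw [h2]
  ring

theorem En_pair (a b : E) (h : a ≠ b) : EnK kk {a, b} = kap kk (a - b) := by
  unfold EnK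
  rw [Finset.sum_pair h, Finset.sum_pair h, Finset.sum_pair h]
  rw [sub_self, sub_self, kap_sub_comm b a, kap_zero]
  ring

theorem cRN_eq_En {N : ℕ} (q : Fin N → E) (hq : Function.Injective q) :
    cRK kk q = EnK kk (Finset.univ.image q) := by
  unfold cRK EnK
  rw [Finset.sum_image (fun a _ b _ h => hq h)]
  congr 1
  refine Finset.sum_congr rfl fun i _ => ?_
  rw [Finset.sum_image (fun a _ b _ h => hq h)]

end energy

section LP

variable {E : Type*} [NormedAddCommGroup E] [InnerProductSpace ℝ E] [DecidableEq E] {kk : ℝ → ℝ} [Ker kk]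

/-- preliminary weights. -/
noncomputable def wLPK (kk : ℝ → ℝ) (Q O : Finset E) (x : E) : ℝ :=
  if x ∈ O then (∑ q ∈ Q, kap kk (x - q)) + kk 2 / 2 else 1 / 2 * ∑ q ∈ Q, kap kk (x - q)

theorem wLP_nonneg (Q O : Finset E) (x : E) : 0 ≤ wLPK kk Q O x := by
  unfold wLPK
  have : 0 ≤ ∑ q ∈ Q, kap kk (x - q) := Finset.sum_nonneg fun q _ => kap_nonneg _
  have h2 := Ker.pos (kk := kk) 2 two_pos
  split_ifs <;> linarith

/-- the weights. -/
noncomputable def WLPK (kk : ℝ → ℝ) (Q O : Finset E) (x : E) : ℝ :=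
  if x ∈ O then wLPK kk Q O x - (Q.card : ℝ) / 2 * ∑ y ∈ Q ∪ O, wLPK kk Q O y
  else wLPK kk Q O x + ∑ y ∈ Q ∪ O, wLPK kk Q O y

theorem sum_WLP (Q O : Finset E) (hQO : Disjoint Q O) (A B : Finset E) (hA : A ⊆ Q) (hB : B ⊆ O) :
    ∑ x ∈ A ∪ B, WLPK kk Q O x = ∑ x ∈ A ∪ B, wLPK kk Q O x +
      ((A.card : ℝ) - (B.card : ℝ) * ((Q.card : ℝ) / 2)) * ∑ y ∈ Q ∪ O, wLPK kk Q O y := by
  have hAB : Disjoint A B := Disjoint.mono hA hB hQO
  rw [Finset.sum_union hAB, Finset.sum_union hAB]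
  have h1 : ∑ x ∈ A, WLPK kk Q O x = ∑ x ∈ A, wLPK kk Q O x + A.card * ∑ y ∈ Q ∪ O, wLPK kk Q O y := by
    rw [← nsmul_eq_mul, ← Finset.sum_const, ← Finset.sum_add_distrib]
    refine Finset.sum_congr rfl fun x hx => ?_
    have : x ∉ O := Finset.disjoint_left.mp hQO (hA hx)
    simp [WLPK, this]
  have h2 : ∑ x ∈ B, WLPK kk Q O x = ∑ x ∈ B, wLPK kk Q O x
      + B.card * (-((Q.card : ℝ) / 2 * ∑ y ∈ Q ∪ O, wLPK kk Q O y)) := by
    rw [← nsmul_eq_mul, ← Finset.sum_const, ← Finset.sum_add_distrib]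
    refine Finset.sum_congr rfl fun x hx => ?_
    have : x ∈ O := hB hx
    simp only [WLPK, this, ↓reduceIte]
    ring
  rw [h1, h2]
  ring

/-- the weights of `Q ∪ {a, b}` against its energy. -/
theorem sum_WLP_pair (Q O : Finset E) (hQO : Disjoint Q O) (a b : E) (ha : a ∈ O) (hb : b ∈ O)
    (hab : a ≠ b) :
    ∑ x ∈ Q ∪ {a, b}, WLPK kk Q O x = EnK kk (Q ∪ {a, b}) + kk 2 - kap kk (a - b) := by
  have hB : ({a, b} : Finset E) ⊆ O := by
    intro x hx
    simp only [Finset.mem_insert, Finset.mem_singleton] at hx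
    rcases hx with rfl | rfl <;> assumption
  have hd : Disjoint Q {a, b} := Disjoint.mono_right hB hQO
  rw [sum_WLP Q O hQO Q {a, b} (Finset.Subset.refl _) hB, En_union Q _ hd, En_pair a b hab,
    Finset.card_pair hab, Finset.sum_union hd, Finset.sum_pair hab, Finset.sum_pair hab]
  have h1 : ∑ x ∈ Q, wLPK kk Q O x = EnK kk Q := by
    unfold EnK
    rw [Finset.mul_sum]
    refine Finset.sum_congr rfl fun x hx => ?_
    have : x ∉ O := Finset.disjoint_left.mp hQO hx
    simp only [wLPK, this, ↓reduceIte, one_div]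
  have h2 : ∀ c ∈ O, wLPK kk Q O c = ∑ q ∈ Q, kap kk (c - q) + kk 2 / 2 := by
    intro c hc
    simp [wLPK, hc]
  rw [h1, h2 a ha, h2 b hb]
  push_cast
  ring

theorem discrete_LP (Q O : Finset E) (hQO : Disjoint Q O) (hQ : 1 ≤ Q.card) (hO : 2 ≤ O.card)
    (hdiam : ∀ a ∈ O, ∀ b ∈ O, ‖a - b‖ ≤ 2) (X : Finset E) (hX : X ⊆ Q ∪ O)
    (hcard : X.card = Q.card + 2) :
    (∃ a ∈ O, ∃ b ∈ O, ‖a - b‖ = 2 ∧ X = Q ∪ {a, b}) ∨ ∑ x ∈ X, WLPK kk Q O x < EnK kk X := by
  set A := X ∩ Q with hA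
  set B := X ∩ O with hB
  have hAQ : A ⊆ Q := Finset.inter_subset_right
  have hBO : B ⊆ O := Finset.inter_subset_right
  have hXAB : X = A ∪ B := by
    rw [hA, hB, ← Finset.inter_union_distrib_left]
    exact (Finset.inter_eq_left.mpr hX).symm
  have hAB : Disjoint A B := Disjoint.mono hAQ hBO hQO
  have hc : A.card + B.card = Q.card + 2 := by
    rw [← hcard, hXAB, Finset.card_union_of_disjoint hAB]
  by_cases hk : A = Q
  · have hBc : B.card = 2 := by
      rw [hk] at hc; omega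
    obtain ⟨a, b, hab, hBab⟩ := Finset.card_eq_two.mp hBc
    have ha : a ∈ O := hBO (by rw [hBab]; simp)
    have hb : b ∈ O := hBO (by rw [hBab]; simp)
    rw [hk, hBab] at hXAB
    by_cases h2 : ‖a - b‖ = 2
    · exact Or.inl ⟨a, ha, b, hb, h2, hXAB⟩
    · right
      have h3 : ‖a - b‖ < 2 := lt_of_le_of_ne (hdiam a ha b hb) h2
      have h4 : 0 < ‖a - b‖ := norm_pos_iff.mpr (sub_ne_zero.mpr hab)
      have h5 : kk 2 < kap kk (a - b) := by
        rw [kap_ne (sub_ne_zero.2 hab)]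
        exact kk_anti h4 (two_pos : (0 : ℝ) < 2) h3
      rw [hXAB, sum_WLP_pair Q O hQO a b ha hb hab]
      linarith only [h5]
  · right
    have hAlt : A.card < Q.card := Finset.card_lt_card (Finset.ssubset_iff_subset_ne.mpr ⟨hAQ, hk⟩)
    set t := ∑ y ∈ Q ∪ O, wLPK kk Q O y with ht
    have hle : ∑ x ∈ A ∪ B, wLPK kk Q O x ≤ t :=
      Finset.sum_le_sum_of_subset_of_nonneg (by rw [← hXAB]; exact hX)
        (fun x _ _ => wLP_nonneg Q O x)
    obtain ⟨o, ho⟩ : O.Nonempty := Finset.card_pos.mp (by omega)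
    have htpos : 0 < t := by
      have h1 : wLPK kk Q O o ≤ t :=
        Finset.single_le_sum (f := wLPK kk Q O) (fun x _ => wLP_nonneg Q O x)
          (Finset.mem_union_right _ ho)
      have h2 : kk 2 / 2 ≤ wLPK kk Q O o := by
        have : 0 ≤ ∑ q ∈ Q, kap kk (o - q) := Finset.sum_nonneg fun q _ => kap_nonneg _
        simp only [wLPK, ho, if_true]
        linarith only [this]
      have h3 := Ker.pos (kk := kk) 2 two_pos
      linarith only [h1, h2, h3]
    have hEn : 0 ≤ EnK kk X := by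
      unfold EnK
      refine mul_nonneg (by norm_num) (Finset.sum_nonneg fun x _ => Finset.sum_nonneg fun y _ => ?_)
      exact kap_nonneg _
    rw [hXAB] at hEn ⊢
    rw [sum_WLP Q O hQO A B hAQ hBO]
    have hcR : (A.card : ℝ) + B.card = Q.card + 2 := by exact_mod_cast hc
    have hAR : (A.card : ℝ) + 1 ≤ Q.card := by exact_mod_cast hAlt
    have hQR : (1 : ℝ) ≤ Q.card := by exact_mod_cast hQ
    have hcoef : (A.card : ℝ) - (B.card : ℝ) * ((Q.card : ℝ) / 2) ≤ -(3 / 2) := by
      have : (B.card : ℝ) = Q.card + 2 - A.card := by linarith only [hcR]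
      rw [this]
      nlinarith only [hAR]
    nlinarith only [hle, htpos, hEn, hcoef]

end LP


section sites

variable {E : Type*} [NormedAddCommGroup E] [InnerProductSpace ℝ E] {kk : ℝ → ℝ} [Ker kk]

/-- The discrete optimisation statement for the site configuration. -/
theorem sitesN {N : ℕ} (hN : 3 ≤ N) {e₁ e₂ : E} (h1 : ‖e₁‖ = 1) (h2 : ‖e₂‖ = 1)
    (h12 : ⟪e₁, e₂⟫ = 0) (R : E ≃ₗᵢ[ℝ] E) (hR : R e₁ = e₂) (hR' : R e₂ = e₁) :
    ∃ W : E → ℝ, (∀ i, W (R (siteN N e₁ e₂ i)) = W (siteN N e₁ e₂ i)) ∧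
      (∑ i, W (siteN N e₁ e₂ i) = cRK kk (siteN N e₁ e₂)) ∧
      ∀ q : Fin N → E, Function.Injective q →
        (∀ i, ∃ j, q i = siteN N e₁ e₂ j ∨ q i = R (siteN N e₁ e₂ j)) →
        (∃ σ : Equiv.Perm (Fin N), q = siteN N e₁ e₂ ∘ σ) ∨
        (∃ σ : Equiv.Perm (Fin N), q = R ∘ siteN N e₁ e₂ ∘ σ) ∨
        ∑ i, W (q i) < cRK kk q := by
  classical
  have h21 : ⟪e₂, e₁⟫ = 0 := by rw [real_inner_comm]; exact h12
  set s := siteN N e₁ e₂ with hs
  have hsinj : Function.Injective s := siteN_injective h1 h2 h12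
  let I : Finset (Fin N) := Finset.univ.filter (fun i : Fin N => (i : ℕ) ≠ 1 ∧ (i : ℕ) ≠ 2)
  let Q : Finset E := I.image s
  let O : Finset E := {e₁, -e₁, e₂, -e₂}
  let i1 : Fin N := ⟨1, by omega⟩
  let i2 : Fin N := ⟨2, by omega⟩
  have hs1 : s i1 = e₁ := by simp [hs, siteN, i1]
  have hs2 : s i2 = -e₁ := by simp [hs, siteN, i2]
  have hsI : ∀ i ∈ I, s i = ((i : ℕ) : ℝ) • (e₁ + e₂) := by
    intro i hi
    simp only [I, Finset.mem_filter, Finset.mem_univ, true_and] at hi
    simp only [hs, siteN, hi.1, ↓reduceIte, hi.2, smul_add]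
  have hRI : ∀ i ∈ I, R (s i) = s i := by
    intro i hi
    rw [hsI i hi, map_smul, map_add, hR, hR', add_comm]
  have hcases : ∀ i : Fin N, i = i1 ∨ i = i2 ∨ i ∈ I := by
    intro i
    by_cases a : (i : ℕ) = 1
    · exact Or.inl (Fin.ext a)
    by_cases b : (i : ℕ) = 2
    · exact Or.inr (Or.inl (Fin.ext b))
    · right; right
      simp only [ne_eq, Finset.mem_filter, Finset.mem_univ, a, not_false_eq_true, b, and_self, I]
  have hi12 : i1 ≠ i2 := by
    intro h; simpa [i1, i2] using congrArg Fin.val h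
  have hi1I : i1 ∉ I := by simp only [ne_eq, Finset.mem_filter, Finset.mem_univ, not_true_eq_false, OfNat.one_ne_ofNat, not_false_eq_true, and_true, and_false, I, i1]
  have hi2I : i2 ∉ I := by simp only [ne_eq, Finset.mem_filter, Finset.mem_univ, OfNat.ofNat_ne_one, not_false_eq_true, not_true_eq_false, and_false, I, i2]
  have hIcard : I.card + 2 = N := by
    have : (Finset.univ : Finset (Fin N)) = insert i1 (insert i2 I) := by
      ext i
      simp only [Finset.mem_univ, Finset.mem_insert, true_iff]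
      exact hcases i
    have h3 := congrArg Finset.card this
    rw [Finset.card_insert_of_notMem (by simp [hi12, hi1I]),
      Finset.card_insert_of_notMem hi2I, Finset.card_univ, Fintype.card_fin] at h3
    omega
  have hQcard : Q.card = I.card := Finset.card_image_of_injective _ hsinj
  have hQO : Disjoint Q O := by
    rw [Finset.disjoint_left]
    intro x hx hxO
    obtain ⟨i, hi, rfl⟩ := Finset.mem_image.mp hx
    have a := hsI i hi
    have b1 : ⟪e₁, s i⟫ = (i : ℝ) := by
      rw [a, real_inner_smul_right, inner_add_right, h12, real_inner_self_eq_norm_sq, h1]; simp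
    have b2 : ⟪e₂, s i⟫ = (i : ℝ) := by
      rw [a, real_inner_smul_right, inner_add_right, h21, real_inner_self_eq_norm_sq, h2]; simp
    simp only [O, Finset.mem_insert, Finset.mem_singleton] at hxO
    rcases hxO with h | h | h | h <;> rw [h] at b1 b2 <;>
      simp [h12, h21, h1, h2, inner_neg_right] at b1 b2 <;>
      rw [← b1] at b2 <;> norm_num at b2
  have k9 : ‖e₁ + e₁‖ = 2 := by rw [← two_smul ℝ, norm_smul, h1]; norm_num
  have k10 : ‖e₂ + e₂‖ = 2 := by rw [← two_smul ℝ, norm_smul, h2]; norm_num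
  have k11 : ‖-e₁ - e₁‖ = 2 := by rw [← neg_add', norm_neg]; exact k9
  have k12 : ‖-e₂ - e₂‖ = 2 := by rw [← neg_add', norm_neg]; exact k10
  have k1 : ‖e₁ - e₂‖ < 2 := by
    have := norm_sub_sq_real e₁ e₂
    rw [h1, h2, h12] at this
    have h0 := norm_nonneg (e₁ - e₂)
    nlinarith only [this]
  have k2 : ‖e₁ + e₂‖ < 2 := by
    have := norm_add_sq_real e₁ e₂
    rw [h1, h2, h12] at this
    have h0 := norm_nonneg (e₁ + e₂)
    nlinarith only [this]
  have k3 : ‖e₂ - e₁‖ < 2 := by rw [norm_sub_rev]; exact k1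
  have k4 : ‖e₂ + e₁‖ < 2 := by rw [add_comm]; exact k2
  have k5 : ‖-e₁ - e₂‖ < 2 := by rw [← neg_add', norm_neg]; exact k2
  have k6 : ‖-e₂ - e₁‖ < 2 := by rw [← neg_add', norm_neg]; exact k4
  have k7 : ‖-e₁ + e₂‖ < 2 := by rw [neg_add_eq_sub]; exact k3
  have k8 : ‖-e₂ + e₁‖ < 2 := by rw [neg_add_eq_sub]; exact k1
  have hpairs : ∀ a ∈ O, ∀ b ∈ O, ‖a - b‖ ≤ 2 ∧ (‖a - b‖ = 2 →
      (({a, b} : Finset E) = {e₁, -e₁} ∨ ({a, b} : Finset E) = {e₂, -e₂})) := by
    intro a ha b hb
    simp only [O, Finset.mem_insert, Finset.mem_singleton] at ha hb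
    rcases ha with rfl | rfl | rfl | rfl <;> rcases hb with rfl | rfl | rfl | rfl <;>
      (try simp only [sub_neg_eq_add, sub_self, neg_add_cancel, norm_zero, k9, k10, k11, k12]) <;>
      first
        | exact ⟨le_rfl, fun _ => Or.inl rfl⟩
        | exact ⟨le_rfl, fun _ => Or.inr rfl⟩
        | exact ⟨le_rfl, fun _ => Or.inl (Finset.pair_comm _ _)⟩
        | exact ⟨le_rfl, fun _ => Or.inr (Finset.pair_comm _ _)⟩
        | exact ⟨k1.le, fun h => absurd h k1.ne⟩
        | exact ⟨k2.le, fun h => absurd h k2.ne⟩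
        | exact ⟨k3.le, fun h => absurd h k3.ne⟩
        | exact ⟨k4.le, fun h => absurd h k4.ne⟩
        | exact ⟨k5.le, fun h => absurd h k5.ne⟩
        | exact ⟨k6.le, fun h => absurd h k6.ne⟩
        | exact ⟨k7.le, fun h => absurd h k7.ne⟩
        | exact ⟨k8.le, fun h => absurd h k8.ne⟩
        | exact ⟨le_rfl, fun _ => Or.inl trivial⟩
        | exact ⟨le_rfl, fun _ => Or.inr trivial⟩
        | exact ⟨zero_le_two, fun h => absurd h.symm two_ne_zero⟩
  have he1O : e₁ ∈ O := by simp only [Finset.mem_insert, Finset.mem_singleton, true_or, O]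
  have hne1O : -e₁ ∈ O := by simp only [Finset.mem_insert, Finset.mem_singleton, neg_inj, true_or, or_true, O]
  have he2O : e₂ ∈ O := by simp only [Finset.mem_insert, Finset.mem_singleton, true_or, or_true, O]
  have hne2O : -e₂ ∈ O := by simp only [Finset.mem_insert, neg_inj, Finset.mem_singleton, or_true, O]
  have hne1 : e₁ ≠ -e₁ := by
    intro h
    have h3 : ‖e₁ - -e₁‖ = 0 := by rw [← h, sub_self, norm_zero]
    rw [sub_neg_eq_add, k9] at h3
    norm_num at h3
  have himg1 : Finset.univ.image s = Q ∪ {e₁, -e₁} := by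
    ext x
    simp only [Finset.mem_image, Finset.mem_univ, true_and, Finset.mem_union, Finset.mem_insert,
      Finset.mem_singleton, Q]
    constructor
    · rintro ⟨i, rfl⟩
      rcases hcases i with rfl | rfl | hi
      · exact Or.inr (Or.inl hs1)
      · exact Or.inr (Or.inr hs2)
      · exact Or.inl ⟨i, hi, rfl⟩
    · rintro (⟨i, hi, rfl⟩ | rfl | rfl)
      · exact ⟨i, rfl⟩
      · exact ⟨i1, hs1⟩
      · exact ⟨i2, hs2⟩
  have himg2 : Finset.univ.image (R ∘ s) = Q ∪ {e₂, -e₂} := by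
    ext x
    simp only [Finset.mem_image, Finset.mem_univ, true_and, Finset.mem_union, Finset.mem_insert,
      Finset.mem_singleton, Q, Function.comp]
    constructor
    · rintro ⟨i, rfl⟩
      rcases hcases i with rfl | rfl | hi
      · exact Or.inr (Or.inl (by rw [hs1, hR]))
      · exact Or.inr (Or.inr (by rw [hs2, map_neg, hR]))
      · exact Or.inl ⟨i, hi, (hRI i hi).symm⟩
    · rintro (⟨i, hi, rfl⟩ | rfl | rfl)
      · exact ⟨i, hRI i hi⟩
      · exact ⟨i1, by rw [hs1, hR]⟩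
      · exact ⟨i2, by rw [hs2, map_neg, hR]⟩
  have hRQ : ∀ x : E, ∑ q ∈ Q, kap kk (R x - q) = ∑ q ∈ Q, kap kk (x - q) := by
    intro x
    refine Finset.sum_congr rfl fun q hq => ?_
    obtain ⟨i, hi, rfl⟩ := Finset.mem_image.mp hq
    conv_lhs => rw [← hRI i hi]
    rw [← map_sub, kap_map]
  have hWO : ∀ x, x ∈ O → R x ∈ O → WLPK kk Q O (R x) = WLPK kk Q O x := by
    intro x hx hRx
    simp only [WLPK, wLPK, hx, hRx, if_true, hRQ x]
  refine ⟨WLPK kk Q O, ?_, ?_, ?_⟩
  · intro i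
    rcases hcases i with rfl | rfl | hi
    · rw [hs1]
      exact hWO _ he1O (by rw [hR]; exact he2O)
    · rw [hs2]
      exact hWO _ hne1O (by rw [map_neg, hR]; exact hne2O)
    · rw [hRI i hi]
  · rw [cRN_eq_En s hsinj, himg1, ← Finset.sum_image (f := WLPK kk Q O) (fun a _ b _ h => hsinj h),
      himg1, sum_WLP_pair Q O hQO e₁ (-e₁) he1O hne1O hne1, sub_neg_eq_add e₁ e₁]
    have hne0 : e₁ + e₁ ≠ 0 := by
      intro h0
      rw [h0, norm_zero] at k9
      norm_num at k9
    rw [kap_ne hne0, k9]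
    ring
  · intro q hq hqs
    have hcardX : (Finset.univ.image q).card = Q.card + 2 := by
      rw [Finset.card_image_of_injective _ hq, Finset.card_univ, Fintype.card_fin, hQcard, hIcard]
    have hXsub : Finset.univ.image q ⊆ Q ∪ O := by
      intro x hx
      obtain ⟨i, -, rfl⟩ := Finset.mem_image.mp hx
      obtain ⟨j, hj⟩ := hqs i
      rcases hj with hj | hj
      · have : q i ∈ Finset.univ.image s := by rw [hj]; exact Finset.mem_image_of_mem _ (Finset.mem_univ j)
        rw [himg1] at this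
        refine Finset.union_subset_union_right ?_ this
        intro y hy
        simp only [Finset.mem_insert, Finset.mem_singleton] at hy
        rcases hy with rfl | rfl <;> assumption
      · have : q i ∈ Finset.univ.image (R ∘ s) := by
          rw [hj]; exact Finset.mem_image_of_mem (R ∘ s) (Finset.mem_univ j)
        rw [himg2] at this
        refine Finset.union_subset_union_right ?_ this
        intro y hy
        simp only [Finset.mem_insert, Finset.mem_singleton] at hy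
        rcases hy with rfl | rfl <;> assumption
    have hOcard : 2 ≤ O.card := by
      have : ({e₁, -e₁} : Finset E) ⊆ O := by
        intro y hy
        simp only [Finset.mem_insert, Finset.mem_singleton] at hy
        rcases hy with rfl | rfl <;> assumption
      rw [← Finset.card_pair hne1]
      exact Finset.card_le_card this
    rcases discrete_LP (kk := kk) Q O hQO (by rw [hQcard]; omega) hOcard
      (fun a ha b hb => (hpairs a ha b hb).1) _ hXsub hcardX with ⟨a, ha, b, hb, hab, hX⟩ | hlt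
    · rcases (hpairs a ha b hb).2 hab with h3 | h3
      · left
        apply exists_perm_of_image_subset hq
        intro i
        have : q i ∈ Finset.univ.image s := by
          rw [himg1, ← h3, ← hX]; exact Finset.mem_image_of_mem _ (Finset.mem_univ i)
        obtain ⟨j, -, hj⟩ := Finset.mem_image.mp this
        exact ⟨j, hj.symm⟩
      · right; left
        apply exists_perm_of_image_subset (t := R ∘ s) hq
        intro i
        have : q i ∈ Finset.univ.image (R ∘ s) := by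
          rw [himg2, ← h3, ← hX]; exact Finset.mem_image_of_mem _ (Finset.mem_univ i)
        obtain ⟨j, -, hj⟩ := Finset.mem_image.mp this
        exact ⟨j, hj.symm⟩
    · right; right
      rw [cRN_eq_En q hq]
      rwa [Finset.sum_image (fun a _ b _ h => hq h)] at hlt

end sites

variable {E : Type*} [NormedAddCommGroup E] [InnerProductSpace ℝ E] {kk : ℝ → ℝ} [Ker kk]

theorem exists_sites (kk : ℝ → ℝ) [Ker kk] {N : ℕ} (hN : 3 ≤ N) {e₁ e₂ : E} (h1 : ‖e₁‖ = 1) (h2 : ‖e₂‖ = 1)
    (h12 : ⟪e₁, e₂⟫ = 0) :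
    ∃ (R : E ≃ₗᵢ[ℝ] E) (W : E → ℝ),
      SitesK kk R (siteN N e₁ e₂) ⟨0, by omega⟩ ⟨1, by omega⟩ ⟨2, by omega⟩ W := by
  classical
  have h21 : ⟪e₂, e₁⟫ = 0 := by rw [real_inner_comm]; exact h12
  let R : E ≃ₗᵢ[ℝ] E := (ℝ ∙ (e₁ - e₂))ᗮ.reflection
  have hR : R e₁ = e₂ := Submodule.reflection_sub (by rw [h1, h2])
  have hRR : ∀ x, R (R x) = x := fun x => Submodule.reflection_reflection _ _
  have hR' : R e₂ = e₁ := by rw [← hR, hRR]
  clear_value R
  obtain ⟨W, hW1, hW2, hW3⟩ := sitesN (kk := kk) hN h1 h2 h12 R hR hR'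
  set s := siteN N e₁ e₂ with hs
  let i1 : Fin N := ⟨1, by omega⟩
  let i2 : Fin N := ⟨2, by omega⟩
  have hs1 : s i1 = e₁ := by simp [hs, siteN, i1]
  have hs2 : s i2 = -e₁ := by simp [hs, siteN, i2]
  have hsI : ∀ i : Fin N, (i : ℕ) ≠ 1 → (i : ℕ) ≠ 2 → s i = ((i : ℕ) : ℝ) • (e₁ + e₂) := by
    intro i hi hi'
    simp [hs, siteN, hi, hi']
  have hfix : ∀ i : Fin N, (i : ℕ) ≠ 1 → (i : ℕ) ≠ 2 → R (s i) = s i := by
    intro i hi hi'
    rw [hsI i hi hi', map_smul, map_add, hR, hR', add_comm]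
  have hs0 : s ⟨0, by omega⟩ = 0 := by
    rw [hsI _ (by simp) (by simp)]; simp
  refine ⟨R, W, hRR, siteN_injective h1 h2 h12, ?_, ?_, ?_, hs0, ?_, ?_, ?_, hW1, hW2, ?_⟩
  · intro h; simpa using congrArg Fin.val h
  · intro h; simpa using congrArg Fin.val h
  · intro h; simpa using congrArg Fin.val h
  · -- sep
    intro i i' h
    have a := siteN_inner h1 h2 h12 i
    have b := siteN_inner h1 h2 h12 i'
    rw [← hs] at a b
    have c1 : ⟪e₁, s i'⟫ = ⟪e₂, s i⟫ := by
      rw [← h, ← hR', LinearIsometryEquiv.inner_map_map]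
    have c2 : ⟪e₂, s i'⟫ = ⟪e₁, s i⟫ := by
      rw [← h]
      conv_lhs => rw [← hR]
      rw [LinearIsometryEquiv.inner_map_map]
    rw [a.2, b.1] at c1
    rw [a.1, b.2] at c2
    have key : (i : ℕ) = i' ∧ (i : ℕ) ≠ 1 ∧ (i : ℕ) ≠ 2 := by
      split_ifs at c1 c2 <;> first
        | (norm_num at c1; done)
        | (norm_num at c2; done)
        | (refine ⟨by exact_mod_cast c2.symm, by assumption, by assumption⟩)
        | (exfalso; rw [c1] at c2; norm_num at c2)
        | (exfalso; rw [← c1] at c2; norm_num at c2)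
    refine ⟨Fin.ext key.1, ?_, ?_⟩
    · intro hh; exact key.2.1 (by rw [hh])
    · intro hh; exact key.2.2 (by rw [hh])
  · -- fix
    intro i hi hi'
    exact hfix i (fun h => hi (Fin.ext h)) (fun h => hi' (Fin.ext h))
  · -- force_fix
    have hf : forceK kk s ⟨0, by omega⟩ = ∑ j, GK kk (s j) := by
      unfold forceK
      simp only [hs0, sub_zero]
    rw [hf, map_sum]
    have key : ∀ f : Fin N → E, ∑ j, f j = f i1 + (f i2 +
        ∑ j ∈ Finset.univ.filter (fun i : Fin N => (i : ℕ) ≠ 1 ∧ (i : ℕ) ≠ 2), f j) := by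
      intro f
      have : (Finset.univ : Finset (Fin N)) = insert i1 (insert i2
          (Finset.univ.filter (fun i : Fin N => (i : ℕ) ≠ 1 ∧ (i : ℕ) ≠ 2))) := by
        ext i
        simp only [Finset.mem_univ, Finset.mem_insert, true_iff, Finset.mem_filter, true_and]
        by_cases a : (i : ℕ) = 1
        · exact Or.inl (Fin.ext a)
        by_cases b : (i : ℕ) = 2
        · exact Or.inr (Or.inl (Fin.ext b))
        · exact Or.inr (Or.inr ⟨a, b⟩)
      conv_lhs => rw [this]
      rw [Finset.sum_insert, Finset.sum_insert]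
      · simp only [ne_eq, Finset.mem_filter, Finset.mem_univ, OfNat.ofNat_ne_one, not_false_eq_true, not_true_eq_false, and_false, i2]
      · simp only [ne_eq, Finset.mem_insert, Fin.mk.injEq, OfNat.one_ne_ofNat, Finset.mem_filter, Finset.mem_univ, not_true_eq_false, not_false_eq_true, and_true, and_false, or_self, i2, i1]
    rw [key, key, hs1, hs2]
    have h3 : ∑ j ∈ Finset.univ.filter (fun i : Fin N => (i : ℕ) ≠ 1 ∧ (i : ℕ) ≠ 2), R (GK kk (s j))
        = ∑ j ∈ Finset.univ.filter (fun i : Fin N => (i : ℕ) ≠ 1 ∧ (i : ℕ) ≠ 2), GK kk (s j) := by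
      refine Finset.sum_congr rfl fun j hj => ?_
      simp only [Finset.mem_filter, Finset.mem_univ, true_and] at hj
      rw [GK_isometry, hfix j hj.1 hj.2]
    rw [h3, GK_neg, map_neg]
    abel
  · -- lp
    intro τ hτ
    have h := hW3 (fun k => site2 R s (τ k)) hτ (by
      intro k
      refine ⟨(τ k).2, ?_⟩
      unfold site2 act
      split_ifs
      · exact Or.inl rfl
      · exact Or.inr rfl)
    rcases h with ⟨σ, hσ⟩ | ⟨σ, hσ⟩ | h
    · exact Or.inl ⟨0, σ, fun k => congrFun hσ k⟩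
    · exact Or.inl ⟨1, σ, fun k => congrFun hσ k⟩
    · exact Or.inr h

end Vale.Agent.P121.H414.K
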