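import Vale.Agent.P121.H414.K.Calc
import Mathlib.Analysis.SpecialFunctions.SmoothTransition
import Mathlib.Analysis.SpecialFunctions.Integrals.Basic
import Mathlib.MeasureTheory.Integral.IntervalIntegral.FundThmCalculus
import Mathlib.Analysis.Complex.ExponentialBounds

set_option linter.all false

open Set Filter Topology Metric MeasureTheory
open scoped RealInnerProductSpace NNReal ContDiff

namespace Vale.Agent.P121.H414.K

section Theta

noncomputable def psi (x : ℝ) : ℝ := x * Real.smoothTransition x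

lemma psi_smooth : ContDiff ℝ ∞ psi := contDiff_id.mul Real.smoothTransition.contDiff

lemma psi_nonpos {x : ℝ} (hx : x ≤ 0) : psi x = 0 := by
  unfold psi
  rw [Real.smoothTransition.zero_of_nonpos hx, mul_zero]

lemma psi_nonneg (x : ℝ) : 0 ≤ psi x := by
  rcases le_total x 0 with h | h
  · rw [psi_nonpos h]
  · exact mul_nonneg h (Real.smoothTransition.nonneg x)

lemma psi_mono : Monotone psi := by
  intro x y hxy
  rcases le_total x 0 with h | h
  · rw [psi_nonpos h]
    exact psi_nonneg y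
  · unfold psi
    exact mul_le_mul hxy (Real.smoothTransition.monotone hxy) (Real.smoothTransition.nonneg x)
      (h.trans hxy)

noncomputable def rho (x : ℝ) : ℝ := Real.exp (-psi x)

lemma rho_smooth : ContDiff ℝ ∞ rho := Real.contDiff_exp.comp psi_smooth.neg

lemma rho_pos (x : ℝ) : 0 < rho x := Real.exp_pos _

lemma rho_anti : Antitone rho := fun x y hxy =>
  Real.exp_le_exp.2 (neg_le_neg (psi_mono hxy))

lemma rho_nonpos {x : ℝ} (hx : x ≤ 0) : rho x = 1 := by
  unfold rho
  rw [psi_nonpos hx, neg_zero, Real.exp_zero]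

lemma rho_le {x : ℝ} (hx : 0 ≤ x) : rho x ≤ Real.exp (1 - x) := by
  unfold rho
  refine Real.exp_le_exp.2 ?_
  rcases le_total x 1 with h | h
  · have := psi_nonneg x
    linarith
  · unfold psi
    rw [Real.smoothTransition.one_of_one_le h]
    linarith

/-- a bounded smooth concave increasing function which is the identity on `(-∞, 1]` -/
noncomputable def theta (r : ℝ) : ℝ := 1 + ∫ t in (0 : ℝ)..(r - 1), rho t

lemma theta_hasDeriv (r : ℝ) : HasDerivAt theta (rho (r - 1)) r := by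
  have h1 : HasDerivAt (fun x : ℝ => ∫ t in (0 : ℝ)..x, rho t) (rho (r - 1)) (r - 1) :=
    intervalIntegral.integral_hasDerivAt_right (rho_smooth.continuous.intervalIntegrable _ _)
      (rho_smooth.continuous.stronglyMeasurableAtFilter _ _) rho_smooth.continuous.continuousAt
  have h2 : HasDerivAt (fun r : ℝ => r - 1) 1 r := (hasDerivAt_id r).sub_const 1
  have h3 := h1.comp r h2
  rw [mul_one] at h3
  exact h3.const_add 1

lemma theta_smooth : ContDiff ℝ ∞ theta := by
  rw [contDiff_infty_iff_deriv]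
  refine ⟨fun r => (theta_hasDeriv r).differentiableAt, ?_⟩
  have h1 : deriv theta = fun r => rho (r - 1) := funext fun r => (theta_hasDeriv r).deriv
  rw [h1]
  exact rho_smooth.comp (contDiff_id.sub contDiff_const)

lemma theta_le_one {r : ℝ} (hr : r ≤ 1) : theta r = r := by
  unfold theta
  have h1 : ∫ t in (0 : ℝ)..(r - 1), rho t = ∫ t in (0 : ℝ)..(r - 1), (1 : ℝ) := by
    refine intervalIntegral.integral_congr fun t ht => ?_
    rw [uIcc_of_ge (by linarith)] at ht
    exact rho_nonpos ht.2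
  rw [h1, intervalIntegral.integral_const]
  simp

lemma theta_lt (r : ℝ) : theta r < 4 := by
  rcases le_total r 1 with h | h
  · rw [theta_le_one h]
    linarith
  · unfold theta
    have h0 : (0 : ℝ) ≤ r - 1 := by linarith
    have h1 : ∫ t in (0 : ℝ)..(r - 1), rho t ≤ ∫ t in (0 : ℝ)..(r - 1), Real.exp (1 - t) := by
      refine intervalIntegral.integral_mono_on h0 (rho_smooth.continuous.intervalIntegrable _ _)
        ((Real.continuous_exp.comp (continuous_const.sub continuous_id)).intervalIntegrable _ _)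
        fun t ht => rho_le ht.1
    have h2 : ∫ t in (0 : ℝ)..(r - 1), Real.exp (1 - t) = Real.exp 1 - Real.exp (2 - r) := by
      have h3 : ∀ t ∈ uIcc (0 : ℝ) (r - 1), HasDerivAt (fun t => -Real.exp (1 - t))
          (Real.exp (1 - t)) t := by
        intro t _
        have h4 : HasDerivAt (fun t : ℝ => 1 - t) (-1) t := by
          simpa using (hasDerivAt_id t).const_sub 1
        have h5 : HasDerivAt (fun t => -Real.exp (1 - t)) (-(Real.exp (1 - t) * -1)) t :=
          (h4.exp).neg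
        rwa [mul_neg_one, neg_neg] at h5
      rw [intervalIntegral.integral_eq_sub_of_hasDerivAt h3
        ((Real.continuous_exp.comp (continuous_const.sub continuous_id)).intervalIntegrable _ _)]
      have e : (1 : ℝ) - (r - 1) = 2 - r := by ring
      rw [e, sub_zero]
      ring
    have h3 := Real.exp_pos (2 - r)
    have h4 := Real.exp_one_lt_three
    linarith

lemma theta_pos {r : ℝ} (hr : 0 < r) : 0 < theta r := by
  rcases le_total r 1 with h | h
  · rw [theta_le_one h]
    exact hr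
  · unfold theta
    have : 0 ≤ ∫ t in (0 : ℝ)..(r - 1), rho t :=
      intervalIntegral.integral_nonneg (by linarith) fun t _ => (rho_pos t).le
    linarith

lemma exists_Theta {R a r₁ : ℝ} (hR : 0 < R) (ha : 0 < a) (har : a * 4 ≤ r₁) :
    ∃ Θ Θ1 Θ2 : ℝ → ℝ, ContDiff ℝ ∞ Θ ∧ (∀ r, HasDerivAt Θ (Θ1 r) r) ∧ (∀ r, 0 < Θ1 r) ∧
      (∀ r, HasDerivAt Θ1 (Θ2 r) r) ∧ (∀ r, Θ2 r ≤ 0) ∧ (∀ r, r ≤ R → Θ r = a / R * r) ∧
      (∀ r, Θ r < r₁) ∧ (∀ r, 0 < r → 0 < Θ r) := by
  have hd : ∀ r : ℝ, HasDerivAt (fun r : ℝ => r / R) (1 / R) r := fun r =>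
    (hasDerivAt_id r).div_const R
  have hρ : ∀ x, HasDerivAt rho (deriv rho x) x := fun x =>
    ((rho_smooth.differentiable (by simp)) x).hasDerivAt
  refine ⟨fun r => a * theta (r / R), fun r => a * (rho (r / R - 1) * (1 / R)),
    fun r => a * (deriv rho (r / R - 1) * (1 / R) * (1 / R)), ?_, ?_, ?_, ?_, ?_, ?_, ?_, ?_⟩
  · exact contDiff_const.mul (theta_smooth.comp (contDiff_id.div_const R))
  · intro r
    exact ((theta_hasDeriv (r / R)).comp r (hd r)).const_mul a
  · intro r
    have := rho_pos (r / R - 1)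
    positivity
  · intro r
    have h1 : HasDerivAt (fun r : ℝ => r / R - 1) (1 / R) r := (hd r).sub_const 1
    exact (((hρ (r / R - 1)).comp r h1).mul_const (1 / R)).const_mul a
  · intro r
    have h1 : deriv rho (r / R - 1) ≤ 0 := rho_anti.deriv_nonpos
    have h2 : 0 ≤ 1 / R := by positivity
    have h3 : deriv rho (r / R - 1) * (1 / R) * (1 / R) ≤ 0 :=
      mul_nonpos_of_nonpos_of_nonneg (mul_nonpos_of_nonpos_of_nonneg h1 h2) h2
    exact mul_nonpos_of_nonneg_of_nonpos ha.le h3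
  · intro r hr
    have h1 : r / R ≤ 1 := by rw [div_le_one hR]; exact hr
    simp only
    rw [theta_le_one h1]
    ring
  · intro r
    have := theta_lt (r / R)
    simp only
    nlinarith
  · intro r hr
    have := theta_pos (div_pos hr hR)
    simp only
    positivity

/-- a kernel with a convex singularity at `0` becomes admissible after composition with a
bounded concave function -/
lemma ker_comp {k Θ Θ1 Θ2 : ℝ → ℝ} {r₁ R c : ℝ} (hks : ContDiffOn ℝ ∞ k (Ioo 0 r₁))
    (hk1 : ∀ r ∈ Ioo 0 r₁, deriv k r < 0) (hk2 : ∀ r ∈ Ioo 0 r₁, 0 < deriv (deriv k) r)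
    (hk0 : ∀ r ∈ Ioo 0 r₁, 0 < k r) (hkb : Tendsto k (𝓝[>] 0) atTop)
    (hΘ : ContDiff ℝ ∞ Θ) (h1 : ∀ r, HasDerivAt Θ (Θ1 r) r) (h1p : ∀ r, 0 < Θ1 r)
    (h2 : ∀ r, HasDerivAt Θ1 (Θ2 r) r) (h2n : ∀ r, Θ2 r ≤ 0)
    (hR : 0 < R) (hc : 0 < c) (hlin : ∀ r, r ≤ R → Θ r = c * r) (hlt : ∀ r, Θ r < r₁)
    (hpos : ∀ r, 0 < r → 0 < Θ r) : Ker (fun r => k (Θ r)) := by
  have hmem : ∀ r, 0 < r → Θ r ∈ Ioo 0 r₁ := fun r hr => ⟨hpos r hr, hlt r⟩
  have hkd : ∀ x ∈ Ioo 0 r₁, HasDerivAt k (deriv k x) x := fun x hx =>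
    ((hks.contDiffAt (Ioo_mem_nhds hx.1 hx.2)).differentiableAt (by simp)).hasDerivAt
  have hks' : ContDiffOn ℝ ∞ (deriv k) (Ioo 0 r₁) :=
    ((contDiffOn_infty_iff_deriv_of_isOpen isOpen_Ioo).1 hks).2
  have hkd2 : ∀ x ∈ Ioo 0 r₁, HasDerivAt (deriv k) (deriv (deriv k) x) x := fun x hx =>
    ((hks'.contDiffAt (Ioo_mem_nhds hx.1 hx.2)).differentiableAt (by simp)).hasDerivAt
  have hD : ∀ r, 0 < r → HasDerivAt (fun r => k (Θ r)) (deriv k (Θ r) * Θ1 r) r := fun r hr =>
    (hkd _ (hmem r hr)).comp r (h1 r)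
  refine ⟨?_, fun r hr => hk0 _ (hmem r hr), ?_, ?_, ?_⟩
  · exact hks.comp hΘ.contDiffOn fun r hr => hmem r hr
  · intro r hr
    rw [(hD r hr).deriv]
    exact mul_neg_of_neg_of_pos (hk1 _ (hmem r hr)) (h1p r)
  · intro r hr
    have hev : deriv (fun r => k (Θ r)) =ᶠ[𝓝 r] fun r => deriv k (Θ r) * Θ1 r := by
      filter_upwards [Ioi_mem_nhds hr] with u hu
      exact (hD u hu).deriv
    have hD2 : HasDerivAt (fun r => deriv k (Θ r) * Θ1 r)
        (deriv (deriv k) (Θ r) * Θ1 r * Θ1 r + deriv k (Θ r) * Θ2 r) r :=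
      ((hkd2 _ (hmem r hr)).comp r (h1 r)).mul (h2 r)
    rw [hev.deriv_eq, hD2.deriv]
    have e1 := hk2 _ (hmem r hr)
    have e2 := hk1 _ (hmem r hr)
    have e3 := h1p r
    have e4 := h2n r
    have e5 : 0 < deriv (deriv k) (Θ r) * Θ1 r * Θ1 r := by positivity
    have e6 : 0 ≤ deriv k (Θ r) * Θ2 r := mul_nonneg_of_nonpos_of_nonpos e2.le e4
    linarith
  · have h3 : Tendsto (fun r : ℝ => c * r) (𝓝[>] 0) (𝓝[>] 0) := by
      refine tendsto_nhdsWithin_of_tendsto_nhds_of_eventually_within _ ?_ ?_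
      · have : Tendsto (fun r : ℝ => c * r) (𝓝 0) (𝓝 (c * 0)) :=
          (continuous_const.mul continuous_id).tendsto 0
        rw [mul_zero] at this
        exact this.mono_left nhdsWithin_le_nhds
      · filter_upwards [self_mem_nhdsWithin] with r hr
        exact mul_pos hc hr
    refine (hkb.comp h3).congr' ?_
    filter_upwards [Ioo_mem_nhdsGT hR] with r hr
    simp only [Function.comp]
    rw [hlin r hr.2.le]

end Theta

end Vale.Agent.P121.H414.K
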