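import Vale.Agent.P121.H414.K.Defs
import Vale.Agent.P121.Bdl.B1

set_option linter.all false

open Set Filter Topology Metric MeasureTheory
open scoped ENNReal

namespace Vale.Agent.P121.H414.K

section Transfer

variable {E : Type*} [NormedAddCommGroup E] [MeasurableSpace E] {N : ℕ}

lemma costK_congr {k k' : ℝ → ℝ} {e : E → E} {S : Set E}
    (h : ∀ x ∈ S, ∀ y ∈ S, pairCost k (e x) (e y) = pairCost k' x y) {x : Fin N → E}
    (hx : ∀ i, x i ∈ S) : costK k (fun i => e (x i)) = costK k' x := by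
  unfold costK
  exact Finset.sum_congr rfl fun i _ => Finset.sum_congr rfl fun j _ => h _ (hx i) _ (hx j)

lemma map_coupling (e : E ≃ᵐ E) {μ : Measure E} {π : Measure (Fin N → E)}
    (hπ : IsCouplingN μ π) :
    IsCouplingN (μ.map e) (π.map (MeasurableEquiv.piCongrRight (fun _ : Fin N => e))) := by
  intro i
  rw [Measure.map_map (measurable_pi_apply i) (MeasurableEquiv.measurable _), ← hπ i,
    Measure.map_map e.measurable (measurable_pi_apply i)]
  rfl

lemma kanto_transfer_le (e : E ≃ᵐ E) {μ : Measure E} {S : Set E} (hS : ∀ᵐ x ∂μ, x ∈ S)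
    {k k' : ℝ → ℝ} (h : ∀ x ∈ S, ∀ y ∈ S, pairCost k (e x) (e y) = pairCost k' x y) :
    kantorovichK k N (μ.map e) ≤ kantorovichK k' N μ := by
  unfold kantorovichK
  refine le_iInf₂ fun π hπ => iInf₂_le_of_le _ (map_coupling e hπ) ?_
  rw [lintegral_map_equiv]
  refine le_of_eq (lintegral_congr_ae ?_)
  filter_upwards [coupling_ae_memN hπ hS] with x hx
  exact costK_congr h hx

lemma kanto_transfer (e : E ≃ᵐ E) {μ : Measure E} {S : Set E} (hS : ∀ᵐ x ∂μ, x ∈ S)
    {k k' : ℝ → ℝ} (h : ∀ x ∈ S, ∀ y ∈ S, pairCost k (e x) (e y) = pairCost k' x y) :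
    kantorovichK k N (μ.map e) = kantorovichK k' N μ := by
  refine le_antisymm (kanto_transfer_le e hS h) ?_
  have hS' : ∀ᵐ x ∂(μ.map e), x ∈ e.symm ⁻¹' S := by
    rw [e.measurableEmbedding.ae_map_iff]
    filter_upwards [hS] with x hx
    simpa using hx
  have h2 := kanto_transfer_le (N := N) e.symm hS' (k := k') (k' := k) (by
    intro x hx y hy
    have := h _ hx _ hy
    rw [e.apply_symm_apply, e.apply_symm_apply] at this
    exact this.symm)
  rwa [MeasurableEquiv.map_symm_map] at h2

lemma monge_transfer (e : E ≃ᵐ E) {μ : Measure E} {S : Set E} (hS : ∀ᵐ x ∂μ, x ∈ S)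
    {k k' : ℝ → ℝ} (h : ∀ x ∈ S, ∀ y ∈ S, pairCost k (e x) (e y) = pairCost k' x y)
    (hM : HasOptimalMongePlanK k N (μ.map e)) : HasOptimalMongePlanK k' N μ := by
  obtain ⟨T, hT, hc⟩ := hM
  have hm : ∀ i, Measurable (fun x => e.symm (T i (e x))) := fun i =>
    e.symm.measurable.comp ((hT.2 i).1.comp e.measurable)
  have hT' : IsMongeN μ (fun i x => e.symm (T i (e x))) := by
    refine ⟨fun i hi => ?_, fun i => ⟨hm i, ?_⟩⟩
    · funext x
      show e.symm (T i (e x)) = x
      rw [hT.1 i hi]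
      exact e.symm_apply_apply x
    · have h1 : μ.map (fun x => e.symm (T i (e x))) = ((μ.map e).map (T i)).map e.symm := by
        rw [Measure.map_map (hT.2 i).1 e.measurable,
          Measure.map_map e.symm.measurable ((hT.2 i).1.comp e.measurable)]
        rfl
      rw [h1, (hT.2 i).2, MeasurableEquiv.map_symm_map]
  refine ⟨_, hT', ?_⟩
  rw [← kanto_transfer e hS h, ← hc]
  unfold mongeCostK
  rw [lintegral_map_equiv]
  refine lintegral_congr_ae ?_
  have hm2 : Measurable (fun (x : E) (i : Fin N) => e.symm (T i (e x))) :=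
    measurable_pi_lambda _ hm
  have h3 := ae_of_ae_map hm2.aemeasurable (coupling_ae_memN hT'.isCoupling hS)
  filter_upwards [h3] with x hx
  have h4 := costK_congr h hx
  simp only [e.apply_symm_apply] at h4
  exact h4.symm

end Transfer

end Vale.Agent.P121.H414.K
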