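import Vale.Agent.P121.H414.K.F
import Vale.Agent.P121.H414.K.Theta
import Vale.Agent.P121.H414.K.Transfer
import Vale.Agent.P121.H414.Three

set_option linter.all false

open Set Filter Topology Metric MeasureTheory
open scoped RealInnerProductSpace ENNReal NNReal ContDiff

namespace Vale.Agent.P121.H414.K

section Final

variable {E : Type*} [NormedAddCommGroup E] [InnerProductSpace ℝ E] [FiniteDimensional ℝ E]
  [MeasurableSpace E] [BorelSpace E]

theorem main_generalK (kk : ℝ → ℝ) [Ker kk] {N : ℕ} (hN : 3 ≤ N)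
    {e₁ e₂ : E} (h1 : ‖e₁‖ = 1) (h2 : ‖e₂‖ = 1) (h12 : ⟪e₁, e₂⟫ = 0) :
    ∃ f : E → ℝ, ContDiff ℝ ∞ f ∧ HasCompactSupport f ∧ (∀ x, 0 ≤ f x) ∧
      ∃ μ : Measure E, μ = (volume : Measure E).withDensity (fun x => ENNReal.ofReal (f x)) ∧
      IsProbabilityMeasure μ ∧ μ (closedBall (0 : E) (∑ i, ‖siteN N e₁ e₂ i‖ + 1))ᶜ = 0 ∧
      kantorovichK kk N μ ≠ (⊤ : ℝ≥0∞) ∧
      ∀ T : Fin N → E → E, IsMongeN μ T → mongeCostK kk μ T ≠ kantorovichK kk N μ := by
  haveI : NeZero N := ⟨by omega⟩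
  obtain ⟨R, W, hS⟩ := exists_sites kk hN h1 h2 h12
  have h0 : (⟨0, by omega⟩ : Fin N) = 0 := Fin.ext (by simp)
  rw [h0] at hS
  exact main_of_sitesS hS

lemma supp_of_null {f : E → ℝ} (hf : Continuous f) (hf0 : ∀ x, 0 ≤ f x) {C : Set E}
    (hC : IsClosed C) (h : (volume : Measure E).withDensity (fun x => ENNReal.ofReal (f x)) Cᶜ = 0) :
    tsupport f ⊆ C := by
  refine closure_minimal (fun x hx => ?_) hC
  by_contra hxC
  rw [withDensity_apply _ hC.isOpen_compl.measurableSet,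
    setLIntegral_eq_zero_iff hC.isOpen_compl.measurableSet
      (hf.measurable.ennreal_ofReal)] at h
  have hO : IsOpen (Cᶜ ∩ {x | 0 < f x}) := hC.isOpen_compl.inter (isOpen_lt continuous_const hf)
  have hne : (Cᶜ ∩ {x | 0 < f x}).Nonempty :=
    ⟨x, hxC, lt_of_le_of_ne (hf0 x) (Ne.symm hx)⟩
  have hpos := hO.measure_pos (volume : Measure E) hne
  refine hpos.ne' (measure_mono_null ?_ h)
  intro y hy hcontra
  have h1 := hcontra hy.1
  rw [ENNReal.ofReal_eq_zero] at h1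
  exact absurd hy.2 (not_lt.2 h1)

theorem main_local (k : ℝ → ℝ) {r₀ : ℝ} (hr₀ : 0 < r₀) (hks : ContDiffOn ℝ ∞ k (Ioo 0 r₀))
    (hk1 : ∀ r ∈ Ioo 0 r₀, deriv k r < 0) (hk2 : ∀ r ∈ Ioo 0 r₀, 0 < deriv (deriv k) r)
    (hkb : Tendsto k (𝓝[>] 0) atTop) {N : ℕ} (hN : 3 ≤ N)
    {e₁ e₂ : E} (h1 : ‖e₁‖ = 1) (h2 : ‖e₂‖ = 1) (h12 : ⟪e₁, e₂⟫ = 0) {Ω : Set E}
    (hΩ : IsOpen Ω) (hne : Ω.Nonempty) :
    ∃ f : E → ℝ, ContDiff ℝ ∞ f ∧ HasCompactSupport f ∧ tsupport f ⊆ Ω ∧ (∀ x, 0 ≤ f x) ∧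
      ∃ μ : Measure E, μ = (volume : Measure E).withDensity (fun x => ENNReal.ofReal (f x)) ∧
      (∀ x ∈ tsupport f, ∀ y ∈ tsupport f, x ≠ y → 0 < k (dist x y)) ∧
      IsProbabilityMeasure μ ∧ kantorovichK k N μ < (⊤ : ℝ≥0∞) ∧
      ¬ HasOptimalMongePlanK k N μ := by
  obtain ⟨c, hc⟩ := hne
  obtain ⟨ρ, hρ, hρΩ⟩ := Metric.nhds_basis_closedBall.mem_iff.1 (hΩ.mem_nhds hc)
  obtain ⟨r₁, hr₁, hr₁₀, hkpos⟩ : ∃ r₁ : ℝ, 0 < r₁ ∧ r₁ ≤ r₀ ∧ ∀ r ∈ Ioo 0 r₁, 0 < k r := by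
    have h1 := hkb.eventually (eventually_gt_atTop (0 : ℝ))
    rw [eventually_nhdsWithin_iff, Metric.eventually_nhds_iff] at h1
    obtain ⟨ε, hε, h2⟩ := h1
    refine ⟨min ε r₀, lt_min hε hr₀, min_le_right _ _, fun r hr => ?_⟩
    exact h2 (y := r) (by rw [Real.dist_eq, sub_zero, abs_of_pos hr.1]
                          exact hr.2.trans_le (min_le_left _ _)) hr.1
  set B : ℝ := ∑ i, ‖siteN N e₁ e₂ i‖ + 1 with hB
  have hB1 : 1 ≤ B := by
    have : 0 ≤ ∑ i, ‖siteN N e₁ e₂ i‖ := Finset.sum_nonneg fun i _ => norm_nonneg _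
    linarith
  have hB0 : 0 < B := by linarith
  set R : ℝ := 2 * B with hR
  have hR0 : 0 < R := by positivity
  set a : ℝ := min (r₁ / 4) (2 * ρ) with ha
  have ha0 : 0 < a := lt_min (by positivity) (by positivity)
  have ha1 : a * 4 ≤ r₁ := by
    have : a ≤ r₁ / 4 := min_le_left _ _
    linarith
  have ha2 : a ≤ 2 * ρ := min_le_right _ _
  set l : ℝ := a / R with hl
  have hl0 : 0 < l := div_pos ha0 hR0
  have hlB' : l * B = a / 2 := by
    rw [hl, hR]
    field_simp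
  have hlB : l * B ≤ ρ := by
    rw [hlB']
    linarith
  obtain ⟨Θ, Θ1, Θ2, hΘ, hd1, hp1, hd2, hn2, hlin, hlt, hpos⟩ := exists_Theta hR0 ha0 ha1
  have hsub : Ioo 0 r₁ ⊆ Ioo 0 r₀ := Ioo_subset_Ioo_right hr₁₀
  haveI hker : Ker (fun r => k (Θ r)) := ker_comp (hks.mono hsub) (fun r hr => hk1 r (hsub hr))
    (fun r hr => hk2 r (hsub hr)) hkpos hkb hΘ hd1 hp1 hd2 hn2 hR0 hl0 hlin hlt hpos
  obtain ⟨f, hf, hfc, hf0, μ, hμ, hprob, hsupp, hfin, hno⟩ :=
    main_generalK (E := E) (fun r => k (Θ r)) hN h1 h2 h12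
  -- the affine map
  let e : E ≃ᵐ E := ((Homeomorph.smulOfNeZero l hl0.ne').trans (Homeomorph.addLeft c)).toMeasurableEquiv
  have he : ∀ x, e x = c + l • x := fun x => rfl
  have hS : ∀ᵐ x ∂μ, x ∈ closedBall (0 : E) B := by
    rw [ae_iff]
    exact hsupp
  have hpair : ∀ x ∈ closedBall (0 : E) B, ∀ y ∈ closedBall (0 : E) B,
      pairCost k (e x) (e y) = pairCost (fun r => k (Θ r)) x y := by
    intro x hx y hy
    by_cases hxy : x = y
    · subst hxy
      rw [pairCost_self, pairCost_self]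
    · have hne : e x ≠ e y := fun h => hxy (e.injective h)
      rw [pairCost_ne hne, pairCost_ne hxy]
      have h3 : dist (e x) (e y) = l * dist x y := by
        rw [he, he, dist_add_left, dist_smul₀, Real.norm_of_nonneg hl0.le]
      have h4 : dist x y ≤ R := by
        rw [mem_closedBall, dist_zero_right] at hx hy
        rw [dist_eq_norm]
        have := norm_sub_le x y
        rw [hR]
        linarith
      rw [h3, hlin _ h4]
  -- the density of the image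
  have hes : ContDiff ℝ ∞ (fun x : E => c + l • x) :=
    contDiff_const.add (contDiff_const.smul contDiff_id)
  have hed : ∀ x v : E, fderiv ℝ (fun x : E => c + l • x) x v = 0 → v = 0 := by
    intro x v hv
    have h3 : HasFDerivAt (fun x : E => c + l • x) (l • ContinuousLinearMap.id ℝ E) x :=
      ((hasFDerivAt_id x).const_smul l).const_add c
    rw [h3.fderiv] at hv
    have h4 : l • v = 0 := hv
    exact (smul_eq_zero.1 h4).resolve_left hl0.ne'
  obtain ⟨g, hg, hgc, hg0, hgt⟩ := smooth_push (volume : Measure E) (F := fun x : E => c + l • x)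
    e.measurable (U := univ) isOpen_univ (fun x _ => hes.contDiffAt)
    (e.injective.injOn) (fun x _ => hed x) hf hfc (subset_univ _) hf0
  have hmap : μ.map e = (volume : Measure E).withDensity (fun x => ENNReal.ofReal (g x)) := by
    ext t ht
    rw [Measure.map_apply e.measurable ht, withDensity_apply _ ht, ← hgt t ht, hμ]
    rfl
  have hprob' : IsProbabilityMeasure (μ.map e) :=
    Measure.isProbabilityMeasure_map e.measurable.aemeasurable
  have hnull : (μ.map e) (closedBall c (l * B))ᶜ = 0 := by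
    rw [Measure.map_apply e.measurable isClosed_closedBall.isOpen_compl.measurableSet]
    refine measure_mono_null ?_ hsupp
    intro x hx hxB
    refine hx ?_
    rw [mem_closedBall, dist_zero_right] at hxB
    rw [he, mem_closedBall, dist_eq_norm, add_sub_cancel_left, norm_smul,
      Real.norm_of_nonneg hl0.le]
    gcongr
  have hts : tsupport g ⊆ closedBall c (l * B) := by
    rw [hmap] at hnull
    exact supp_of_null hg.continuous hg0 isClosed_closedBall hnull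
  refine ⟨g, hg, hgc, (hts.trans (closedBall_subset_closedBall hlB)).trans hρΩ, hg0, μ.map e,
    hmap, ?_, hprob', ?_, ?_⟩
  · intro x hx y hy hxy
    refine hkpos _ ⟨dist_pos.2 hxy, ?_⟩
    have h3 := hts hx
    have h4 := hts hy
    rw [mem_closedBall, hlB'] at h3 h4
    have h5 := dist_triangle_right x y c
    linarith
  · rw [kanto_transfer e hS hpair]
    exact hfin.lt_top
  · intro hM
    obtain ⟨T, hT, hcost⟩ := monge_transfer e hS hpair hM
    exact hno T hT hcost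

end Final

section Coulomb

variable {E : Type*} [NormedAddCommGroup E]

lemma pairCost_inv (x y : E) : pairCost (fun r => r⁻¹) x y = (edist x y)⁻¹ := by
  by_cases h : x = y
  · subst h
    rw [pairCost_self, edist_self, ENNReal.inv_zero]
  · rw [pairCost_ne h, edist_dist, ENNReal.ofReal_inv_of_pos (dist_pos.2 h)]

lemma costK_inv {N : ℕ} (x : Fin N → E) : costK (fun r => r⁻¹) x = coulombN x := by
  unfold costK coulombN
  simp only [pairCost_inv]

lemma kantorovichK_inv [MeasurableSpace E] (N : ℕ) (μ : Measure E) :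
    kantorovichK (fun r => r⁻¹) N μ = kantorovichN N μ := by
  unfold kantorovichK kantorovichN
  simp only [costK_inv]

lemma hasOptimal_inv [MeasurableSpace E] (N : ℕ) (μ : Measure E)
    (h : HasOptimalMongePlanN N μ) : HasOptimalMongePlanK (fun r => r⁻¹) N μ := by
  obtain ⟨T, hT, hc⟩ := h
  refine ⟨T, hT, ?_⟩
  rw [kantorovichK_inv, ← hc]
  unfold mongeCostK mongeCostN
  simp only [costK_inv]

lemma inv_kernel : ContDiffOn ℝ ∞ (fun r : ℝ => r⁻¹) (Ioo 0 1) ∧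
    (∀ r ∈ Ioo (0 : ℝ) 1, deriv (fun r : ℝ => r⁻¹) r < 0 ∧
      0 < deriv (deriv (fun r : ℝ => r⁻¹)) r) ∧
    Tendsto (fun r : ℝ => r⁻¹) (𝓝[>] 0) atTop := by
  refine ⟨fun r hr => (contDiffAt_inv ℝ hr.1.ne').contDiffWithinAt, fun r hr => ⟨?_, ?_⟩,
    tendsto_inv_nhdsGT_zero⟩
  · rw [deriv_inv]
    have := hr.1
    have h2 : 0 < (r ^ 2)⁻¹ := by positivity
    linarith
  · rw [deriv_inv']
    have h0 := hr.1
    have h1 : HasDerivAt (fun x : ℝ => -(x ^ 2)⁻¹) (-(-(2 * r) / (r ^ 2) ^ 2)) r := by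
      have h2 : HasDerivAt (fun x : ℝ => x ^ 2) (2 * r) r := by
        simpa using hasDerivAt_pow 2 r
      exact (h2.inv (by positivity)).neg
    rw [h1.deriv]
    have : 0 < 2 * r / (r ^ 2) ^ 2 := by positivity
    rw [neg_div, neg_neg]
    exact this

end Coulomb

lemma hasTest {d : ℕ} {Ω : Set (EuclideanSpace ℝ (Fin d))} {f : EuclideanSpace ℝ (Fin d) → ℝ}
    {μ : Measure (EuclideanSpace ℝ (Fin d))} (hf : ContDiff ℝ ∞ f) (hfc : HasCompactSupport f)
    (hfΩ : tsupport f ⊆ Ω) (hf0 : ∀ x, 0 ≤ f x)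
    (hμ : μ = volume.withDensity (fun x => ENNReal.ofReal (f x))) (h1 : IsProbabilityMeasure μ) :
    HasTestDensity Ω f μ := by
  refine ⟨hf, hfc, hfΩ, hf0, hμ, h1, ?_, ?_, ⟨tsupport f, hfc, ?_⟩⟩
  · rw [hμ]
    exact withDensity_absolutelyContinuous _ _
  · obtain ⟨C, hC⟩ := hfc.exists_bound_of_continuous hf.continuous
    refine ⟨Real.toNNReal C, ?_⟩
    rw [hμ, Measure.le_iff]
    intro t ht
    rw [withDensity_apply _ ht, Measure.smul_apply, ENNReal.smul_def, smul_eq_mul]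
    calc ∫⁻ x in t, ENNReal.ofReal (f x) ≤ ∫⁻ _ in t, ((Real.toNNReal C : ℝ≥0) : ℝ≥0∞) := by
          refine lintegral_mono fun x => ?_
          exact ENNReal.ofReal_le_ofReal ((le_abs_self _).trans (hC x))
      _ = _ := by rw [setLIntegral_const]
  · rw [hμ, withDensity_apply _ (isClosed_tsupport f).isOpen_compl.measurableSet,
      setLIntegral_congr_fun (isClosed_tsupport f).isOpen_compl.measurableSet (g := fun _ => 0),
      lintegral_zero]
    intro x hx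
    simp only
    rw [image_eq_zero_of_notMem_tsupport hx, ENNReal.ofReal_zero]

theorem final_kernel (k : ℝ → ℝ) (hk : HasConvexSingularity k) (N d : ℕ) (hN : 3 ≤ N)
    (hd : 2 ≤ d) (Ω : Set (EuclideanSpace ℝ (Fin d))) (hΩ : IsOpen Ω) (hne : Ω.Nonempty) :
    ∃ (μ : Measure (EuclideanSpace ℝ (Fin d))) (f : EuclideanSpace ℝ (Fin d) → ℝ),
      HasTestDensity Ω f μ ∧
      (∀ x ∈ tsupport f, ∀ y ∈ tsupport f, x ≠ y → 0 < k (dist x y)) ∧
      kantorovichK k N μ < (⊤ : ℝ≥0∞) ∧ ¬ HasOptimalMongePlanK k N μ := by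
  obtain ⟨⟨r₀, hr₀, hks, hk12⟩, hkb⟩ := hk
  obtain ⟨f, hf, hfc, hfΩ, hf0, μ, hμ, hkp, h1, h4, h5⟩ :=
    main_local (E := EuclideanSpace ℝ (Fin d)) k hr₀ hks (fun r hr => (hk12 r hr).1)
      (fun r hr => (hk12 r hr).2) hkb hN
      (e₁ := EuclideanSpace.single (⟨0, by omega⟩ : Fin d) (1 : ℝ))
      (e₂ := EuclideanSpace.single (⟨1, by omega⟩ : Fin d) (1 : ℝ)) (by simp) (by simp)
      (by rw [EuclideanSpace.inner_single_left]; simp) hΩ hne
  exact ⟨μ, f, hasTest hf hfc hfΩ hf0 hμ h1, hkp, h4, h5⟩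

theorem final_coulomb (N d : ℕ) (hN : 3 ≤ N) (hd : 2 ≤ d)
    (Ω : Set (EuclideanSpace ℝ (Fin d))) (hΩ : IsOpen Ω) (hne : Ω.Nonempty) :
    ∃ (μ : Measure (EuclideanSpace ℝ (Fin d))) (f : EuclideanSpace ℝ (Fin d) → ℝ),
      HasTestDensity Ω f μ ∧
      kantorovichN N μ < (⊤ : ℝ≥0∞) ∧ ¬ HasOptimalMongePlanN N μ := by
  obtain ⟨μ, f, hf, -, h4, h5⟩ :=
    final_kernel (fun r => r⁻¹) ⟨⟨1, one_pos, inv_kernel.1, inv_kernel.2.1⟩, inv_kernel.2.2⟩
      N d hN hd Ω hΩ hne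
  rw [kantorovichK_inv] at h4
  exact ⟨μ, f, hf, h4, fun h => h5 (hasOptimal_inv N μ h)⟩

end Vale.Agent.P121.H414.K
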