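import Vale.Agent.P121.H414.K.Final

set_option linter.all false

open Set Filter Topology Metric MeasureTheory
open scoped RealInnerProductSpace ENNReal NNReal ContDiff

namespace Vale.Agent.P121.H414.K

lemma riesz_kernel {s : ℝ} (hs : 0 < s) : HasConvexSingularity (fun r : ℝ => r ^ (-s)) := by
  have hd : ∀ r : ℝ, 0 < r → HasDerivAt (fun r : ℝ => r ^ (-s)) (-s * r ^ (-s - 1)) r :=
    fun r hr => Real.hasDerivAt_rpow_const (Or.inl hr.ne')
  have hd2 : ∀ r : ℝ, 0 < r → HasDerivAt (fun r : ℝ => -s * r ^ (-s - 1))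
      (-s * ((-s - 1) * r ^ (-s - 1 - 1))) r :=
    fun r hr => (Real.hasDerivAt_rpow_const (Or.inl hr.ne')).const_mul (-s)
  refine ⟨⟨1, one_pos, fun r hr => ?_, fun r hr => ⟨?_, ?_⟩⟩, ?_⟩
  · exact (Real.contDiffAt_rpow_const_of_ne hr.1.ne').contDiffWithinAt
  · rw [(hd r hr.1).deriv]
    have := Real.rpow_pos_of_pos hr.1 (-s - 1)
    nlinarith
  · have hev : deriv (fun r : ℝ => r ^ (-s)) =ᶠ[𝓝 r] fun r => -s * r ^ (-s - 1) := by
      filter_upwards [Ioi_mem_nhds hr.1] with u hu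
      exact (hd u hu).deriv
    rw [hev.deriv_eq, (hd2 r hr.1).deriv]
    have h1 := Real.rpow_pos_of_pos hr.1 (-s - 1 - 1)
    have h2 : 0 < s * (s + 1) := by positivity
    have e : -s * ((-s - 1) * r ^ (-s - 1 - 1)) = s * (s + 1) * r ^ (-s - 1 - 1) := by ring
    rw [e]
    positivity
  · exact tendsto_rpow_neg_nhdsGT_zero (neg_lt_zero.2 hs)

lemma log_kernel : HasConvexSingularity (fun r : ℝ => -Real.log r) := by
  have hd : ∀ r : ℝ, 0 < r → HasDerivAt (fun r : ℝ => -Real.log r) (-r⁻¹) r :=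
    fun r hr => (Real.hasDerivAt_log hr.ne').neg
  have hd2 : ∀ r : ℝ, 0 < r → HasDerivAt (fun r : ℝ => -r⁻¹) (-(-(r ^ 2)⁻¹)) r :=
    fun r hr => (hasDerivAt_inv hr.ne').neg
  refine ⟨⟨1, one_pos, fun r hr => ?_, fun r hr => ⟨?_, ?_⟩⟩, ?_⟩
  · exact ((Real.contDiffAt_log.2 hr.1.ne').neg).contDiffWithinAt
  · rw [(hd r hr.1).deriv]
    have : 0 < r⁻¹ := inv_pos.2 hr.1
    linarith
  · have hev : deriv (fun r : ℝ => -Real.log r) =ᶠ[𝓝 r] fun r => -r⁻¹ := by
      filter_upwards [Ioi_mem_nhds hr.1] with u hu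
      exact (hd u hu).deriv
    rw [hev.deriv_eq, (hd2 r hr.1).deriv, neg_neg]
    have := hr.1
    positivity
  · exact tendsto_neg_atBot_atTop.comp Real.tendsto_log_nhdsGT_zero

end Vale.Agent.P121.H414.K
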